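import Crest.Agent.R096.Crb2_609
import Crest.Agent.R096.Ecm8_446

/-!
# R096 (row 96), helper609: CORE-BLOCK, part 5

`core_block_pt` : the blocks `core`, `hS`, `hRr` of `Fin_147.fin_stG`, with pointwise hypotheses on
the boundaries of the exact cores.
-/

set_option autoImplicit false
set_option linter.unusedSectionVars false
set_option linter.unusedVariables false
set_option linter.style.longLine false

open Set Metric

namespace Crest.Agent.R096.Crb_609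

open Crest.Agent.R096.Ce_537 (PLOn PLEquiv plOn_affine)
open Crest.Agent.R096.Bd_416 Crest.Agent.R096.Grd_714
open Crest.Agent.R096.Xp_537 Crest.Agent.R096.Bin_181
open Crest.Agent.R096.Brk1_582 Crest.Agent.R096.Brk2_582 Crest.Agent.R096.Brk3_582
open Crest.Agent.R096.Brk5_582 Crest.Agent.R096.Brk6_582
open Crest.Agent.R096.Bsp_628
open Crest.Agent.R096.SkC1_961 (E3 Hom3 FoamD Cfg th NN)
open Crest.Agent.R096.Msh_715
open Crest.Agent.R096.Cin_181 (thC thA thI thA_eq thI_th th_thI)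
open Crest.Agent.R096.Fin_147 (gr)

variable {δ κ0 R c0 : ℝ} {La Om : Set E3} {ι : Type} {Φ : FoamD δ κ0 R c0 La}
  {Tl : Tiling Om ι} {f : E3 → E3} {κ1 κ2 : ℝ} {X : Set Φ.F} {ct : Φ.F → ι}
  {A : Φ.F → E3 ≃ᵃ[ℝ] E3} {lam : Φ.F → ℝ} {z : Φ.F → E3}

/-- **CORE-BLOCK**, pointwise -/
theorem core_block_pt (hLa : IsOpen La) (hδ : 0 < δ) (hR : 0 < R)
    (hE : ∀ a ∈ X, Mbf_337.Exact Φ Tl f κ1 κ2 a (ct a) (A a) (lam a) (z a))
    {m : Φ.F → ℕ} (hm : ∀ a, 0 < m a) (hne : ∀ c : Φ.F, (Pc Φ.F c).Nonempty)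
    {s κf : ℝ} (hs : 0 < s) (hs1 : s < 1) (hκf : 0 < κf) (hκs : 2 * κf ≤ s)
    {M : Φ.F → ℕ} {n : Φ.F → Φ.F → ℕ → ℝ} (hn : ∀ a ∈ X, NodeOK Φ m s a (M a) (n a))
    {Kc : Φ.F → Set E3} (hKX : ∀ a ∈ X, Kc a = P (Tl.H (ct a)))
    {Jf : Type} {fam : Jf → Φ.F} {lv : Jf → ℕ} {κb : ℝ} {bt : ℕ → ℝ} {k : ℕ} {g0 Gf : Gd E3 Jf}
    {Q : Type} {K : Q → Set E3}
    (hb : ∀ a, ∀ ha : a ∈ X, ∀ x ∈ frontier (Kc a),
      EqAt (ekS (gr Φ hLa hne hm) (bc (F := Φ.F)) κb (.top a) fam lv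
        (eB hLa (hE a ha) hm (hn a ha))) g0 x)
    (hg : ∀ a ∈ X, ∀ x ∈ frontier (Kc a), EqAt (sqs g0 bt k) Gf x)
    (hq : ∀ a ∈ X, ∀ x ∈ frontier (Kc a), ∃ q, x ∈ K q ∧ K q ⊆ frontier (Kc a) ∧
      IsClosed (K q)) :
    ∃ Rr : Φ.F → E3 → E3,
      (∀ a ∈ X, ∃ (U : PLEquiv (Kc a) (Pc Φ.F a))
        (e : PLEquiv (frontier (Kc a)) (bdP (Pc Φ.F) (bc (F := Φ.F)) m a)),
        (∀ x ∈ Kc a, U.f x = Rr a (th (A a) (lam a) (z a) x)) ∧
        (∀ x ∈ Kc a, x ∈ frontier (Kc a) ↔ U.f x ∈ bdP (Pc Φ.F) (bc (F := Φ.F)) m a) ∧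
        (∀ x ∈ frontier (Kc a), e.f x = U.f x) ∧
        (∀ y ∈ bdP (Pc Φ.F) (bc (F := Φ.F)) m a, e.g y = U.g y) ∧
        (∀ x ∈ frontier (Kc a),
          EqAt (ekS (gr Φ hLa hne hm) (bc (F := Φ.F)) κb (.top a) fam lv e) g0 x) ∧
        (∀ x ∈ frontier (Kc a), EqAt (sqs g0 bt k) Gf x) ∧
        ∀ x ∈ frontier (Kc a), ∃ q, x ∈ K q ∧ K q ⊆ frontier (Kc a) ∧ IsClosed (K q)) ∧
      (∀ a ∈ X, ∀ y ∈ a.1.set, ∀ y' ∈ a.1.set,
        ‖st (gr Φ hLa hne hm) κf (Rr a y) - st (gr Φ hLa hne hm) κf (Rr a y')‖ ≤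
          Rpk_714.Spk δ κ0 R * ‖y - y'‖) ∧
      (∀ a ∈ X, ∀ u ∈ interior a.1.set,
        Rr a ((1 - s) • u + s • (gr Φ hLa hne hm).b (.top a)) =
          (1 - s) • u + s • (gr Φ hLa hne hm).b (.top a)) := by
  classical
  have key := fun a (ha : a ∈ X) => core_one hLa hδ hR (hE a ha) hm hne hs hs1 (hn a ha)
  choose! Rr U hU1 hU2 he hei hin hlip using key
  refine ⟨Rr, fun a ha => ?_, fun a ha y hy y' hy' => ?_, fun a ha u hu => ?_⟩
  · have hK := hKX a ha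
    refine ⟨(U a ha).restr (A' := Kc a) (B' := Pc Φ.F a) hK.subset subset_rfl
      (by rw [hK]; exact (U a ha).mf) (by rw [hK]; exact (U a ha).mg),
      (eB hLa (hE a ha) hm (hn a ha)).restr (A' := frontier (Kc a))
        (B' := bdP (Pc Φ.F) (bc (F := Φ.F)) m a) (by rw [hK]) subset_rfl
        (by rw [hK]; exact (eB hLa (hE a ha) hm (hn a ha)).mf)
        (by rw [hK]; exact (eB hLa (hE a ha) hm (hn a ha)).mg), ?_, ?_, ?_, ?_, ?_, ?_, ?_⟩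
    · exact fun x hx => hU1 a ha x
    · intro x hx
      have h5 := hU2 a ha x (hK.subset hx)
      show x ∈ frontier (Kc a) ↔ (U a ha).f x ∈ _
      rw [hK]
      exact h5
    · intro x hx
      rw [hK] at hx
      exact he a ha x hx
    · exact fun y hy => hei a ha y hy
    · exact fun x hx => hb a ha x hx
    · exact fun x hx => hg a ha x hx
    · exact fun x hx => hq a ha x hx
  · exact hlip a ha κf hκf hκs y hy y' hy'
  · exact hin a ha u (interior_subset hu)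

end Crest.Agent.R096.Crb_609
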