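import Crest.Agent.R096.Np2_962
import Crest.Agent.R096.Bxc2_635

/-!
Row 96 (S0127), NO0 for `p ≥ 3` (helper635), leaf (iii) of #10931: **the dictionary**:
`Np_962.FrontC` for the foam `ΦN` (= `Bxc1_635.fN`, concentric holes of arbitrarily small ratio), for an
abstract map `φ` (`= Γ⁻¹ ∘ Th ∘ Γ ∘ f`), a stretch `S` and `f1 = S ∘ φ`.
-/

set_option autoImplicit false
set_option linter.unusedSectionVars false
set_option linter.unusedVariables false
open Set Filter Topology MeasureTheory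
open scoped NNReal ENNReal

noncomputable section

namespace Crest.Agent.R096.Dcn_635

open Crest.Agent.R096.Brk1_582 Crest.Agent.R096.Brk2_582 Crest.Agent.R096.Brk3_582
open Crest.Agent.R096.Brk4_582 Crest.Agent.R096.Brk5_582
open Crest.Agent.R096.Bsp_628 Crest.Agent.R096.Log1_582 Crest.Agent.R096.Log2_582
open Crest.Agent.R096.Log3_582 Crest.Agent.R096.Dic1_582 Crest.Agent.R096.Dic2_582
open Crest.Agent.R096.Dic3_582 Crest.Agent.R096.Dic4_582 Crest.Agent.R096.Dic6_582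
open Crest.Agent.R096.Dic7_582 Crest.Agent.R096.Npr_582 Crest.Agent.R096.Np_962
open Crest.Agent.R096.Bxc1_635
open Crest.Agent.R96.Push_899 (EE co SE IE Box coreBF Mid Psi Pun Wall Foam0 FoamC Uni IsStretch
  Lands Hole foamBF foamHole toBox brk foam0_brk brk_asp countable_brk mem_SE_brk co_injective
  mem_co_image continuous_co uni_logA LaE co_image_LaE isOpen_LaE mkFoamD mkFoamD_Psi brk')
open Crest.Agent.R96.Acl_392 Crest.Agent.R96.Sob1_199 Crest.Agent.R96.Sob2_199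
  Crest.Agent.R96.Sob3_199 Crest.Agent.R96.Sob4_199 Crest.Agent.R96.Sob5_199
open Crest.Agent.R096.SkC1_961 (E3 Hom3 FoamD IsPush)
open Crest.Agent.R096.Er_594 (SH3)
open Crest.Agent.R96.En10_199 (P3)
open Crest.Agent.R096.Bxs_627 (ctr)

/-- the sum of the norms of the columns of `diag s` -/
def Vs (p : ℝ) (s : Fin 3 → ℝ) : ℝ≥0∞ :=
  ∑ l : Fin 3, ‖(EuclideanSpace.single l (s l) : EE (Fin 3))‖ₑ ^ p

/-- **DICTIONARY, `p ≥ 3`**: `FrontC` from the data of the push. -/
theorem frontC_of {p : ℝ} (hp : 1 ≤ p) {q : ℕ} {s : Fin 3 → ℝ} (hs : ∀ i, 0 ≤ s i) (hs2 : s 2 = 0)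
    {ε ε' d : ℝ≥0∞} (hqε : 6 / (q : ℝ≥0∞) ≤ ε) (hdε : d ≤ ε')
    (hd1 : C1 q p * (d + Vs p s * d) ≤ ε')
    (hcon : (2 ^ p + C0 p + C1 q p) * d + (C0 p * (Vs p s * (6 / (q : ℝ≥0∞))) +
      C1 q p * (Vs p s * d)) ≤ ε)
    {Om La : Set E3} (hOm : IsOpen Om) (hLa : IsOpen La) {K₀ : Set (EE (Fin 3))}
    (hK : IsCompact K₀) (hKΛ : K₀ ⊆ LaE La) {M h : ℝ} {a : Fin 3 → ℝ} {F : Set (Bx (Fin 3))}
    (hF : Fr q (LaE La) K₀ M h a F) (hM : 3 ≤ M) (lam : F → ℝ) (hl : ∀ c, 0 < lam c)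
    (hl4 : ∀ c, lam c ≤ 1 / 4)
    {φ : E3 → EE (Fin 3)} (hφc : ContinuousOn φ Om) (hφm : MapsTo φ Om (LaE La))
    (hφw : ∀ l : Fin 3, ∃ D : E3 → EE (Fin 3), VWD Om volume φ D (Pi.single l 1))
    {S : EE (Fin 3) ≃ₜ EE (Fin 3)} (hS : IsStretch 2 (LaE La) h S)
    (homeo : Hom3 (fun x => co (S (φ x))) Om La)
    {X : Set E3} (hXO : X ⊆ Om) (hXm : MeasurableSet X) (hXv : volume X ≤ d * volume Om)
    (hXK : ∀ x ∈ Om \ X, φ x ∈ K₀)
    (hXh : ∀ x ∈ Om, ∀ c, co (S (φ x)) ∈ (holeN (bfOf hF) lam hl c).S → x ∈ X)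
    (hland : ∀ x ∈ Om \ X, ∀ c, S (φ x) ∈ SE (brk' (bfOf hF) c) → Lands 2 h (brk' (bfOf hF) c) (φ x)
      (Psi (brk' (bfOf hF)) (coreN (bfOf hF)) (holeN (bfOf hF) lam hl) (S (φ x))))
    (hstrip : (volume.restrict Om) (Strip q a h φ) ≤ 6 / (q : ℝ≥0∞) * volume Om)
    (hE : ∀ D' : Fin 3 → E3 → EE (Fin 3),
      (∀ l, VWD (Om ∩ (fun x => S (φ x)) ⁻¹' (Pun (LaE La) (holeN (bfOf hF) lam hl))) volume
        (fun x => Psi (brk' (bfOf hF)) (coreN (bfOf hF)) (holeN (bfOf hF) lam hl) (S (φ x)))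
        (D' l) (Pi.single l 1)) →
      ∫⁻ x in Om ∩ (fun x => S (φ x)) ⁻¹' (Pun (LaE La) (holeN (bfOf hF) lam hl)),
        ∑ l : Fin 3, ‖D' l x - EuclideanSpace.single l (s l)‖ₑ ^ p ≤ d * volume Om) :
    ∃ (HH : Set E3) (g : F → Fin 3 → E3 → ℝ),
      FrontC p q s ε ε' Om La M h a (ΦN (bfOf hF) hF.cmp lam hl hl4) (fun x => co (S (φ x))) X HH
        g := by
  have hh := hF.s0
  have hLE : IsOpen (LaE La) := isOpen_LaE hLa
  set z : F → Fin 3 → ℝ := fun c => ctr c.1 with hz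
  set B : F → Box (Fin 3) := holeN (bfOf hF) lam hl with hB
  set v : Fin 3 → EE (Fin 3) := fun l => EuclideanSpace.single l (s l) with hv
  have hC : FoamC (LaE La) (brk hF.foam) (fun c => coreBF (brk hF.foam c) (z c)) B ∅ (cN q)
      (fun _ => 0) (fun c => Crest.Agent.R96.Push_899.side (brk hF.foam c)) :=
    foamN (bfOf hF) (kF_one q) (cN_pos q) (cN_le q) lam hl hl4
  have hOO : IsOpen (OO Om (LaE La) B S φ) := isOpen_OO hC hLE hOm hφc
  set f1 : E3 → E3 := fun x => co (S (φ x)) with hf1d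
  have hland' : ∀ x ∈ Om \ X, ∀ c, S (φ x) ∈ SE (brk hF.foam c) →
      Lands 2 h (brk hF.foam c) (φ x) (FF (brk hF.foam) B z S φ x) := hland
  have hSm : ∀ x ∈ Om, S (φ x) ∈ LaE La := fun x hx => (stretch_mem hS).2 (hφm hx)
  have hOp : Op (ΦN (bfOf hF) hF.cmp lam hl hl4) Om f1 = OO Om (LaE La) B S φ := by
    ext x
    constructor
    · rintro ⟨h1, h2⟩
      refine ⟨h1, hSm x h1, ?_⟩
      rw [mem_iUnion]
      rintro ⟨c, hc⟩
      exact h2 c hc
    · rintro ⟨h1, h2, h3⟩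
      refine ⟨h1, fun c hc => h3 ?_⟩
      rw [mem_iUnion]
      exact ⟨c, hc⟩
  have hPsi : ∀ x ∈ Om, (ΦN (bfOf hF) hF.cmp lam hl hl4).Psi (f1 x) =
      co (FF (brk hF.foam) B z S φ x) := fun x hx =>
    fN_Psi (bfOf hF) hF.cmp (kF_one q) (cN_pos q) (cN_le q) lam hl hl4 (hSm x hx)
  have hlev : ∀ x ∈ Om, ∀ c : F, (ΦN (bfOf hF) hF.cmp lam hl hl4).lev c (f1 x) =
      s3 F c (FF (brk hF.foam) B z S φ x) := by
    intro x hx c
    unfold FoamD.lev
    rw [hPsi x hx]
    rfl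
  -- weak derivatives
  have hex : ∀ l : Fin 3, ∃ D', VWD (OO Om (LaE La) B S φ) volume
      (FF (brk hF.foam) B z S φ) D' (Pi.single l 1) := fun l => by
    obtain ⟨D, hD⟩ := hφw l
    exact exists_vwd_FF hF hLE hOm hφc hS hC hD
  choose D' hD' using hex
  have hexg : ∀ l : Fin 3, ∃ g : F → E3 → ℝ, ∀ c,
      WD (OO Om (LaE La) B S φ) volume
        (fun x => s3 F c (FF (brk hF.foam) B z S φ x)) (g c)
          (Pi.single l 1) := fun l => exists_wd_s3 hF hLE hOm hφc hC (hD' l)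
  choose g0 hg0 using hexg
  have hexm : ∀ (c : F) (l : Fin 3), ∃ g' : E3 → ℝ, Measurable g' ∧
      WD (OO Om (LaE La) B S φ) volume
        (fun x => s3 F c (FF (brk hF.foam) B z S φ x)) g'
          (Pi.single l 1) := fun c l => exists_measurable_wd hOO (hg0 l c)
  choose g hgm hg using hexm
  have hEn : ∫⁻ x in OO Om (LaE La) B S φ, ∑ l : Fin 3, ‖D' l x - v l‖ₑ ^ p ≤ d * volume Om :=
    hE D' hD'
  have hsl : ∀ l : Fin 3, ‖v l 0‖ₑ + ‖v l 1‖ₑ = ENNReal.ofReal (s l) := by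
    intro l
    fin_cases l
    · simp [hv, ← ofReal_norm, abs_of_nonneg (hs 0)]
    · simp [hv, ← ofReal_norm, abs_of_nonneg (hs 1)]
    · simp [hv, hs2]
  have e1 : ∀ l : Fin 3, ∫⁻ x in OO Om (LaE La) B S φ, ‖D' l x - v l‖ₑ ^ p ≤ d * volume Om := by
    intro l
    refine le_trans (lintegral_mono fun x => ?_) hEn
    exact Finset.single_le_sum (f := fun l => ‖D' l x - v l‖ₑ ^ p) (fun _ _ => zero_le)
      (Finset.mem_univ l)
  have e2 : ∀ l : Fin 3, ‖v l‖ₑ ^ p ≤ Vs p s := fun l =>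
    Finset.single_le_sum (f := fun l => ‖v l‖ₑ ^ p) (fun _ _ => zero_le) (Finset.mem_univ l)
  have e3 : volume (Om ∩ X) ≤ d * volume Om := (measure_mono inter_subset_right).trans hXv
  have hXin : ∀ x ∈ Om \ X, x ∈ OO Om (LaE La) B S φ := by
    rintro x ⟨hx, hxX⟩
    refine ⟨hx, hSm x hx, ?_⟩
    rw [mem_iUnion]
    rintro ⟨c, hc⟩
    exact hxX (hXh x hx c hc)
  refine ⟨OO Om (LaE La) B S φ ∩ {x | ∀ᶠ x' in 𝓝 x,
      HW F q a h (co (FF (brk hF.foam) B z S φ x'))}, g, ?_⟩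
  exact
    { q1 := hF.q1
      h0 := hh
      fr := ⟨K₀, hK, hKΛ, hF⟩
      homeo := homeo
      op := by rw [hOp]; exact hOO
      XO := hXO
      Xm := hXm
      Xv := hXv.trans (by gcongr)
      HHo := hOO.inter (isOpen_iff_mem_nhds.2 fun x hx => eventually_eventually_nhds.2 hx)
      HHs := by rw [hOp]; exact inter_subset_left
      HHX := fun x hx => ⟨hXin x hx,
        hor_eventually hF hM hLE hOm hφc hφm hS hXK hC hland' (hXin x hx) hx.2⟩
      HHw := by
        intro x hx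
        rw [hPsi x hx.1.1]
        exact hx.2.self_of_nhds
      Qv := by
        have h1 : {x | x ∈ Om ∧ ¬ (x ∈ OO Om (LaE La) B S φ ∩ {x | ∀ᶠ x' in 𝓝 x,
              HW F q a h (co (FF (brk hF.foam) B z S φ x'))} ∧
            QW (ΦN (bfOf hF) hF.cmp lam hl hl4).F q a h
              ((ΦN (bfOf hF) hF.cmp lam hl hl4).Psi (f1 x)))} ⊆
            (Strip q a h φ ∩ Om) ∪ X := by
          rintro x ⟨hx, hn⟩
          by_cases hX : x ∈ X
          · exact Or.inr hX
          by_cases hst : x ∈ Strip q a h φ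
          · exact Or.inl ⟨hst, hx⟩
          exfalso
          apply hn
          refine ⟨⟨hXin x ⟨hx, hX⟩,
            hor_eventually hF hM hLE hOm hφc hφm hS hXK hC hland' (hXin x ⟨hx, hX⟩) hX⟩, ?_⟩
          rw [hPsi x hx]
          obtain ⟨-, l2, ⟨n, l3⟩, l4⟩ := lands_at hF (by linarith) hφm hS hXK hland' ⟨hx, hX⟩
          have hY : ¬ NearMul q ⌊(φ x 0 - a 0) / h⌋ ∧ ¬ NearMul q ⌊(φ x 1 - a 1) / h⌋ :=
            not_or.1 hst
          have e1 : ∀ s t b : ℝ, |s - t| ≤ h / 2 → |⌊(s - b) / h⌋ - ⌊(t - b) / h⌋| ≤ 1 := by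
            intro s t b hst
            apply abs_floor_sub_le
            have : (s - b) / h - (t - b) / h = (s - t) / h := by ring
            rw [this, abs_div, abs_of_pos hh, div_le_one hh]
            linarith
          exact gsq_near hF.q1 hh hF.logs (r' := h / 2) (by nlinarith) l2 l3
            (not_dvd_of hY.1 (e1 _ _ _ (l4 0))) (not_dvd_of hY.2 (e1 _ _ _ (l4 1)))
        calc _ ≤ volume ((Strip q a h φ ∩ Om) ∪ X) := measure_mono h1
          _ ≤ volume (Strip q a h φ ∩ Om) + volume X := measure_union_le _ _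
          _ ≤ (volume.restrict Om) (Strip q a h φ) + ε' * volume Om :=
            add_le_add (Measure.le_restrict_apply _ _) (hXv.trans (by gcongr))
          _ ≤ ε * volume Om + ε' * volume Om :=
            add_le_add (hstrip.trans (by gcongr)) le_rfl
          _ = (ε + ε') * volume Om := by ring
      gm := hgm
      wd := by
        intro c l
        rw [hOp]
        refine wd_congr hOO (hg c l) (Eventually.of_forall fun x hx => ?_)
          (Eventually.of_forall fun _ _ => rfl)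
        exact (hlev x hx.1 c).symm
      eW := by
        intro l w hw hw'
        rw [hOp]
        have key := dict_FF (μ := volume) hF hM hLE hOm hφc hφm hS hXK hC hland' (hD' l)
          (fun c => hg c l) hw hw' (v l) hp
        rw [hsl l] at key
        refine key.trans ?_
        calc _ ≤ (2 ^ p + C0 p + C1 q p) * (d * volume Om) +
              (C0 p * (Vs p s * (6 / q * volume Om)) + C1 q p * (Vs p s * (d * volume Om))) :=
              add_le_add (mul_le_mul' le_rfl (e1 l)) (add_le_add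
                (mul_le_mul' le_rfl (mul_le_mul' (e2 l) hstrip))
                (mul_le_mul' le_rfl (mul_le_mul' (e2 l) e3)))
          _ = ((2 ^ p + C0 p + C1 q p) * d + (C0 p * (Vs p s * (6 / q)) +
              C1 q p * (Vs p s * d))) * volume Om := by ring
          _ ≤ ε * volume Om := by gcongr
      eX := by
        intro l w hw hw'
        rw [hOp]
        have key := dict_X (μ := volume) hF hLE hOm hφc hXm hC (hD' l) (fun c => hg c l) hw' (v l) hp
        refine key.trans ?_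
        calc C1 q p * ((∫⁻ x in OO Om (LaE La) B S φ, ‖D' l x - v l‖ₑ ^ p) +
              ‖v l‖ₑ ^ p * volume X) ≤
            C1 q p * (d * volume Om + Vs p s * (d * volume Om)) := by
              refine mul_le_mul' le_rfl (add_le_add (e1 l) (mul_le_mul' (e2 l) hXv))
          _ = C1 q p * (d + Vs p s * d) * volume Om := by ring
          _ ≤ ε' * volume Om := by gcongr }

end Crest.Agent.R096.Dcn_635
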