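import Crest.Agent.R096.Flb5_422
import Crest.Agent.R096.Fcd1_117

/-!
# R096 (row 96), DOORS, `Front.lab` (helper422), part 6: **`lab_front`**.

`lab_front` : the literal field `lab` of 662's `FrontM` at 662's vertices, from `posB`, the exact
pattern at the giants (`GiD`) and the truthful state at the exact core tiles.
-/

set_option autoImplicit false
set_option linter.unusedSectionVars false
set_option linter.unusedVariables false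

open Set Relation Module

namespace Crest.Agent.R096.Flb_422

open Crest.Agent.R096.Brk1_582 Crest.Agent.R096.Brk2_582 Crest.Agent.R096.Brk3_582
  Crest.Agent.R096.Brk5_582 Crest.Agent.R096.Bsp_628 Crest.Agent.R096.Init_543
  Crest.Agent.R096.Vb_965 Crest.Agent.R096.Msh_715 Crest.Agent.R096.St_147
  Crest.Agent.R096.Seq_213 Crest.Agent.R096.Lm_117 Crest.Agent.R096.Gl_422
  Crest.Agent.R096.SkB_662 Crest.Agent.R096.Cpo_642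
  Crest.Agent.R096.Ce_537 Crest.Agent.R096.Agl5_543
  Crest.Agent.R096.Cp_298 Crest.Agent.R096.Gm_298 Crest.Agent.R096.Ac_117
  Crest.Agent.R096.Sla_184 Crest.Agent.R096.Sla_184.Sla
  Crest.Agent.R096.Rop_441 Crest.Agent.R096.Lmx_662 Crest.Agent.R096.Qdl_662
  Crest.Agent.R096.Frk_441 Crest.Agent.R096.Fcd_117
open Crest.Agent.R096.SkC1_961 (E3 Hom3 FoamD)
open Crest.Agent.R096.Mbf_337 (KJ sb)
open Crest.Agent.R096.Gia_537 (Kc Kc_sub Kc_compact Kc_disj Kc_exact KJ_mono)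
open Crest.Agent.R096.Frn_337 (Ti cti Lay pO)
open Crest.Agent.R096.Dia_316 (nbT)

variable {δ κ0 R c0 : ℝ} {La Om : Set E3} {ι : Type} {Φ : FoamD δ κ0 R c0 La}
  {T : Tiling Om ι} {f g : E3 → E3} {κ1 κ2 s₁ s' : ℝ} {X : Set Φ.F} {J0 J V : Φ.F → Set ι}
  {ct : Φ.F → ι}
  {A : Φ.F → E3 ≃ᵃ[ℝ] E3} {lam : Φ.F → ℝ} {z : Φ.F → E3} {θ : Φ.F → E3 → E3} {φ : Φ.F → E3 → ℝ}
  {ct' : Φ.F → ι} {r₀ : Φ.F → ℝ} {S : Sla T (Ti X)} {M : Φ.F → ℕ}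
  [Nonempty S.T3.Cell] {hH : ∀ k, CoreH S.T3 (S.KK k)} {hne : ∃ c, OutK S.T3 S.KK c}
  {L : Φ.F → Finset ℝ} {s₀ : GSt (mK fr3 hH (dis_KK (S := S))) (fun j : JJ Φ L => j.1)}
  {hLa : IsOpen La} {hR : InitR Φ T f g J0 ct' r₀}
  {hM : Mesh0 T (Pc Φ.F) (bc (F := Φ.F)) (RF Φ r₀) f (KorJ Φ J0) κ1} {hε : κ1 < s₁}
  {hε1 : κ1 < 1}

/-- **`FrontM.lab`** at 662's vertices -/
theorem lab_front [Nonempty (JJ Φ L)] {hG : GF Φ r₀ T f L} {D : Φ.F → Set E3}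
    {bp : JJ Φ L → E3} {lam₀ : JJ Φ L → E3 → ZMod 2} {v₀ v₁ : Φ.F → E3} {μ : ℝ}
    (hf : Hom3 f Om La) (hLc : IsPreconnected La) (hN : Num δ κ0 R c0 κ2 κ1 s₁)
    (hC : Mbf_337.Cores Φ T f κ1 κ2 X J0 J V ct A lam z θ φ) (hF : Mbf_337.Fine Φ T f κ1 J0)
    (hW : Mbf_337.Words Φ T f X ct A lam z M L)
    (hκμ : κ1 < μ) (hμ : s₁ ≤ μ) (hm : ∀ c, ∀ t ∈ L c, μ ≤ t ∧ t ≤ 1 - μ)
    (hK : ∀ k : Ti X, S.K k = KJ T (J k.1)) (hs' : s₁ + κ1 ≤ s')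
    (on : ∀ w ∈ s₀.P, w ∈ (lmK fr3 hH (dis_KK (S := S)) hne).W1)
    (posB : PosS Φ T f s' J0 S s₀)
    (hI : InitS hLa hR hM hε hε1 hG D bp lam₀ v₀ v₁)
    {q0 q1 : Φ.F → ι} {w0 w1 x0 x1 : Φ.F → E3} (hv : VxD Φ T f V D q0 q1 w0 w1 x0 x1)
    (hgi : ∀ (k : Ti X) a, nbT Φ X k a → (∃ j : JJ Φ L, j.1 = a) → GiD s₁ θ S s₀ k a)
    (hst : ∀ j : JJ Φ L, (∀ k : Ti X, ¬ nbT Φ X k j.1) → ∀ c ∈ X, ∀ w ∈ P (T.H (ct c)),
      ((w ∈ s₀.P ∧ s₀.lab w = j) ↔ (w ∈ (st0 hG bp).P ∧ (st0 hG bp).lab w = j)))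
    (hi0 : ∀ a c, ¬ P (T.H (q0 a)) ⊆ S.K c) (hi1 : ∀ a c, ¬ P (T.H (q1 a)) ⊆ S.K c) :
    ∃ lm, LabIn (lmK fr3 hH (dis_KK (S := S)) hne)
      (qdT (fun p : T.RIdx S.HH => p.tile) (sla_sub S) S.KK hLa hR hM hε hε1) s₀
      (fun c => GD fr3 hH dis_KK (D c)) (fun c => ZK S.T3 S.KK (D c)) lm
      (fun a => vK (S := S) (hi0 a) (hv.mem0 a) (hv.dim0 a))
      (fun a => vK (S := S) (hi1 a) (hv.mem1 a) (hv.dim1 a)) := by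
  refine labIn_front (t0 := st0 hG bp) (lam0 := lam₀)
    (w₀ := fun a => vK (S := S) (hi0 a) (hv.mem0 a) (hv.dim0 a))
    (w₁ := fun a => vK (S := S) (hi1 a) (hv.mem1 a) (hv.dim1 a)) hN hC hK hs' on posB hI.body
    (fun j => vK_far _ (hv.mem1 j.1) (hv.dim1 j.1) (hv.far j.1)) (fun j => ?_)
  exact exists_cd hf hLc hN hC hF hW hκμ hμ hm hK hs' on posB hI hv hgi hst j
    (deep_vK hLa hN hR hC hK hv j.1 _) (far_vK hLa hN hR hC hK hv j.1 _)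

end Crest.Agent.R096.Flb_422
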