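import Crest.Agent.R096.Hl6_955
import Crest.Agent.R096.Frk1_441

/-!
# R096 (row 96), FRONT (helper955), part 7: the field `labX` of 662's `FrontM` from `on`, `posB`,
`lab`, `lev` (letters of 441's `k4_front`, `ropX_front`)
-/

set_option autoImplicit false
set_option linter.unusedSectionVars false
set_option linter.unusedVariables false
set_option linter.style.longLine false

open Set Relation Module

namespace Crest.Agent.R096.Hl_955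

open Crest.Agent.R096.Brk1_582 Crest.Agent.R096.Brk2_582 Crest.Agent.R096.Brk3_582
  Crest.Agent.R096.Brk5_582 Crest.Agent.R096.Bsp_628 Crest.Agent.R096.Init_543
  Crest.Agent.R096.Vb_965 Crest.Agent.R096.Msh_715 Crest.Agent.R096.St_147
  Crest.Agent.R096.Seq_213 Crest.Agent.R096.Lm_117 Crest.Agent.R096.Gl_422
  Crest.Agent.R096.SkB_662 Crest.Agent.R096.Cpo_642
  Crest.Agent.R096.Ce_537 Crest.Agent.R096.Agl5_543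
  Crest.Agent.R096.Cp_298 Crest.Agent.R096.Gm_298 Crest.Agent.R096.Ac_117
  Crest.Agent.R096.Sla_184 Crest.Agent.R096.Sla_184.Sla
  Crest.Agent.R096.Rop_441 Crest.Agent.R096.Qdl_662
  Crest.Agent.R096.Lmx_662 Crest.Agent.R096.Frk_441 Crest.Agent.R096.Onb_63
open Crest.Agent.R096.SkC1_961 (E3 Hom3 FoamD)
open Crest.Agent.R096.Mbf_337 (KJ sb Cores Words)
open Crest.Agent.R096.Frn_337 (Ti cti Lay pO)

variable {δ κ0 R c0 : ℝ} {La Om : Set E3} {ι : Type} {Φ : FoamD δ κ0 R c0 La}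
  {T : Tiling Om ι} {f g : E3 → E3} {κ1 κ2 s₁ s' : ℝ} {X : Set Φ.F} {J0 J V : Φ.F → Set ι}
  {ct : Φ.F → ι}
  {A : Φ.F → E3 ≃ᵃ[ℝ] E3} {lam : Φ.F → ℝ} {z : Φ.F → E3} {θ : Φ.F → E3 → E3} {φ : Φ.F → E3 → ℝ}
  {M : Φ.F → ℕ}
  {ct' : Φ.F → ι} {r₀ : Φ.F → ℝ} {S : Sla T (Ti X)}

variable [Nonempty S.T3.Cell] {hH : ∀ k, CoreH S.T3 (S.KK k)} {hne : ∃ c, OutK S.T3 S.KK c}
  {L : Φ.F → Finset ℝ} {s₀ : GSt (mK fr3 hH (dis_KK (S := S))) (fun j : JJ Φ L => j.1)}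
  {hLa : IsOpen La} {hR : InitR Φ T f g J0 ct' r₀}
  {hM : Mesh0 T (Pc Φ.F) (bc (F := Φ.F)) (RF Φ r₀) f (KorJ Φ J0) κ1} {hε : κ1 < s₁}
  {hε1 : κ1 < 1}

/-- **`Front.labX`** / `FrontM.labX` -/
theorem labX_front (hLc : IsPreconnected La) (hN : Num δ κ0 R c0 κ2 κ1 s₁)
    (hC : Cores Φ T f κ1 κ2 X J0 J V ct A lam z θ φ)
    (hK : ∀ k : Ti X, S.K k = KJ T (J k.1)) (hs' : s₁ + κ1 ≤ s')
    (hL : Lay Φ T X J0 J S.T3 S.KK (Lay_316.c3 S)) (hW : Words Φ T f X ct A lam z M L)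
    {μ : ℝ} (hμ0 : 0 < μ) (hm : ∀ a, ∀ t ∈ L a, μ ≤ t ∧ t ≤ 1 - μ)
    (on : ∀ w ∈ s₀.P, w ∈ (lmK fr3 hH (dis_KK (S := S)) hne).W1)
    (posB : PosS Φ T f s' J0 S s₀)
    (lev : ∀ x ∈ s₀.P, ∀ i, (∀ k : Ti X, i ∉ V k.1) → x ∈ P (T.H i) →
      Φ.lev (s₀.lab x).1 (f x) = (s₀.lab x).2.1)
    {Gc : Φ.F → Set E3} {Zc : Φ.F → Set (QK (belK S.T3 S.KK))}
    {lam₀ : JJ Φ L → QK (belK S.T3 S.KK) → ZMod 2} {v₀ v₁ : Φ.F → QK (belK S.T3 S.KK)}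
    (h0 : ∀ j : JJ Φ L, DeepS hC r₀ S j.1 (v₀ j.1))
    (h1 : ∀ j : JJ Φ L, FarS Φ f r₀ J S (θN δ κ0 R c0 κ2 κ1) j.1 (v₁ j.1))
    (hl : LabIn (lmK fr3 hH (dis_KK (S := S)) hne)
      (qdT (fun p => p.tile) (sla_sub S) S.KK hLa hR hM hε hε1) s₀ Gc Zc lam₀ v₀ v₁) :
    ∀ c ∈ X, ∀ v : {c : S.T3.Cell // OutK S.T3 S.KK c}, v.1.dim = 0 →
      v.1.set ⊆ P (T.H (ct c)) →
      ∀ j : JJ Φ L, lam₀ j (QK.c _ v) = 1 ↔ Φ.lev j.1 (f v.1.pt) < j.2.1 :=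
  labX_S hLa hLc hN hR hC hM (tinyK_of hK) (cplxS hC hK)
    (lst_of_B (hLa := hLa) (hR := hR) (hM := hM) (hε := hε) (hε1 := hε1) (hne := hne) hC hK hs' on
      posB) hL hW hμ0 hm hl.lab h0 h1 hl.one hl.zero
    fun c hc w hw hwi => lev w hw (ct c) (fun k => ct_not_V hC hc k.2) hwi

end Crest.Agent.R096.Hl_955
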