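import Mathlib
import Crest.Agent.R096.Lc5_451

/-!
# R096/Lc6_451 (helper451, row 96, P2-CUBE)

A flat connected hole-free region `W × {h}` of a cubical surface `S`: local facts (no pinching,
edges and vertices common to `W × {h}` and `S` lie on the boundary curve).
-/

set_option autoImplicit false

namespace Crest.Agent.R096.Lc_451

/-- a flat region of colour `a` at height `h` -/
structure Reg (X : Pt → ℤ → ZMod 2) (h : ℤ) (a : ZMod 2) (W : Finset Pt) : Prop where
  ne : W.Nonempty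
  con : Con W
  hf : HF W
  fl : ∀ s ∈ W, Fl X h a s
  out : ∀ s ∈ W, ∀ t, t ∉ W → nb s t → ¬ Fl X h a t

/-- the sides of an edge, with the cofaces in dimension 3 -/
theorem sides' {e : Pt} (he : Ed e) :
    ∃ s t, Sq s ∧ Sq t ∧ nb s t ∧ mid s t = e ∧ (∀ a, bd2 a e = a s + a t) ∧
      ∀ z q z', z % 2 = 0 → (Cf e z q z' ↔ ((q = s ∨ q = t) ∧ z' = z) ∨
        (q = e ∧ (z' = z + 1 ∨ z' = z - 1))) := by
  obtain ⟨x, y⟩ := e
  rcases he with ⟨hx, hy⟩ | ⟨hx, hy⟩
  · simp only at hx hy
    have hs : Sq (x - 1, y) := ⟨by simp only; omega, hy⟩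
    have hn : nb (x - 1, y) (x + 1, y) := Or.inl (by ext <;> simp only; ring)
    have hm : mid (x - 1, y) (x + 1, y) = (x, y) := by
      unfold mid; simp only; ext <;> simp only <;> omega
    obtain ⟨_, h2, h3⟩ := bd2_mid hs hn
    rw [hm] at h3
    refine ⟨_, _, hs, h2, hn, hm, h3, ?_⟩
    intro z q z' hz
    unfold Cf
    simp only
    constructor
    · rintro (⟨_, h | h, h'⟩ | ⟨h, _, _⟩ | ⟨_, h, h'⟩)
      · exact Or.inl ⟨Or.inr h, h'⟩
      · exact Or.inl ⟨Or.inl h, h'⟩
      · omega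
      · exact Or.inr ⟨h, h'⟩
    · rintro (⟨h | h, h'⟩ | ⟨h, h'⟩)
      · exact Or.inl ⟨hx, Or.inr h, h'⟩
      · exact Or.inl ⟨hx, Or.inl h, h'⟩
      · exact Or.inr (Or.inr ⟨hz, h, h'⟩)
  · simp only at hx hy
    have hs : Sq (x, y - 1) := ⟨hx, by simp only; omega⟩
    have hn : nb (x, y - 1) (x, y + 1) := Or.inr (Or.inr (Or.inl (by ext <;> simp only; ring)))
    have hm : mid (x, y - 1) (x, y + 1) = (x, y) := by
      unfold mid; simp only; ext <;> simp only <;> omega
    obtain ⟨_, h2, h3⟩ := bd2_mid hs hn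
    rw [hm] at h3
    refine ⟨_, _, hs, h2, hn, hm, h3, ?_⟩
    intro z q z' hz
    unfold Cf
    simp only
    constructor
    · rintro (⟨h, _, _⟩ | ⟨_, h | h, h'⟩ | ⟨_, h, h'⟩)
      · omega
      · exact Or.inl ⟨Or.inr h, h'⟩
      · exact Or.inl ⟨Or.inl h, h'⟩
      · exact Or.inr ⟨h, h'⟩
    · rintro (⟨h | h, h'⟩ | ⟨h, h'⟩)
      · exact Or.inr (Or.inl ⟨hy, Or.inr h, h'⟩)
      · exact Or.inr (Or.inl ⟨hy, Or.inl h, h'⟩)
      · exact Or.inr (Or.inr ⟨hz, h, h'⟩)

/-- the boundary only depends on the cofaces -/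
theorem bd_congr {A B : Pt → ℤ → ZMod 2} {p : Pt} {z : ℤ}
    (h : ∀ q z', Cf p z q z' → A q z' = B q z') : bd A p z = bd B p z := by
  rw [bd_def, bd_def]
  congr 1
  · unfold bd2
    congr 1
    · split_ifs with h1
      · simp only
        rw [h _ z (Or.inl ⟨h1, Or.inl rfl, rfl⟩), h _ z (Or.inl ⟨h1, Or.inr rfl, rfl⟩)]
      · rfl
    · split_ifs with h1
      · simp only
        rw [h _ z (Or.inr (Or.inl ⟨h1, Or.inl rfl, rfl⟩)), h _ z (Or.inr (Or.inl ⟨h1, Or.inr rfl, rfl⟩))]
      · rfl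
  · split_ifs with h1
    · rw [h p _ (Or.inr (Or.inr ⟨h1, rfl, Or.inl rfl⟩)), h p _ (Or.inr (Or.inr ⟨h1, rfl, Or.inr rfl⟩))]
    · rfl

theorem bd_zero (p : Pt) (z : ℤ) : bd (fun _ _ => 0) p z = 0 := by
  rw [bd_def, bd2_zero]
  simp

theorem exists_cf_of_bd {A : Pt → ℤ → ZMod 2} {p : Pt} {z : ℤ} (h : bd A p z ≠ 0) :
    ∃ q z', Cf p z q z' ∧ A q z' ≠ 0 := by
  by_contra hcon
  push Not at hcon
  apply h
  rw [bd_congr (B := fun _ _ => 0) (fun q z' hc => hcon q z' hc), bd_zero]

theorem Nr_cf {v : Pt} {zv : ℤ} (hv : Vx v) (hz : zv % 2 = 0) {p : Pt} {z : ℤ} (hn : Nr v zv p z)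
    {q : Pt} {z' : ℤ} (hc : Cf p z q z') : Nr v zv q z' := by
  obtain ⟨x, y⟩ := v
  obtain ⟨p1, p2⟩ := p
  obtain ⟨hx, hy⟩ := hv
  unfold Nr at *
  unfold Cf at hc
  simp only at *
  rw [abs_le, abs_le, abs_le] at hn
  rcases hc with ⟨h1, h2, h3⟩ | ⟨h1, h2, h3⟩ | ⟨h1, h2, h3⟩
  · rcases h2 with rfl | rfl <;>
    · simp only
      rw [abs_le, abs_le, abs_le]
      omega
  · rcases h2 with rfl | rfl <;>
    · simp only
      rw [abs_le, abs_le, abs_le]
      omega
  · subst h2
    simp only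
    rw [abs_le, abs_le, abs_le]
    omega

section region

variable {S X : Pt → ℤ → ZMod 2} (hS : Surf S)
  (hXd : ∀ p z, X p z ≠ 0 → Sq p ∧ z % 2 = 1) (hX : ∀ p z, bd X p z = S p z)
  {h : ℤ} {a : ZMod 2} {W : Finset Pt} (R : Reg X h a W)

include hXd R in
theorem reg_even : h % 2 = 0 := by
  by_contra hh
  obtain ⟨s, hs, t, ht, hst⟩ := exists_out R.ne
  have h1 := R.fl s hs
  apply R.out s hs t ht hst
  unfold Fl at *
  rw [X_even hXd (by omega), X_even hXd (by omega)] at *
  exact h1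

include hXd R in
theorem reg_sq : ∀ s ∈ W, Sq s := by
  classical
  obtain ⟨s, hs, t, ht, hst⟩ := exists_out R.ne
  have hsq : Sq s := by
    by_contra hsq
    have htq : ¬ Sq t := fun h' => hsq (bd2_mid h' hst.symm).2.1
    have h1 := R.fl s hs
    apply R.out s hs t ht hst
    unfold Fl at *
    rw [X_nsq hXd hsq, X_nsq hXd hsq] at h1
    rw [X_nsq hXd htq, X_nsq hXd htq]
    exact h1
  rcases R.con (W.filter (fun p => p.1 % 2 = 1 ∧ p.2 % 2 = 1)) (Finset.filter_subset _ _) (by
    intro p hp q hq hpq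
    rw [Finset.mem_filter] at hp ⊢
    exact ⟨hq, (bd2_mid (s := p) hp.2 hpq).2.1⟩) with h1 | h1
  · exfalso
    have : s ∈ W.filter (fun p => p.1 % 2 = 1 ∧ p.2 % 2 = 1) := Finset.mem_filter.2 ⟨hs, hsq⟩
    rw [h1] at this
    simp at this
  · intro p hp
    rw [← h1] at hp
    exact (Finset.mem_filter.1 hp).2

/-- the boundary of the flat disc -/
theorem bd_layer (W : Finset Pt) {h : ℤ} (hh : h % 2 = 0) (p : Pt) (z : ℤ) :
    bd (layer W h) p z = if z = h then bd2 (ind W) p else 0 := by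
  by_cases hz : z = h
  · subst hz
    rw [bd_even hh, layer_eq, if_pos rfl]
    unfold layer
    rw [if_neg (by omega), if_neg (by omega)]
    simp
  · rw [if_neg hz]
    by_cases hz2 : z % 2 = 0
    · rw [bd_even hz2, layer_other W hz, bd2_zero]
      unfold layer
      rw [if_neg (by omega), if_neg (by omega)]
      simp
    · rw [bd_odd (by omega), layer_other W hz, bd2_zero]

include hXd hX R in
/-- (F1) -/
theorem S_on_W {s : Pt} (hs : s ∈ W) : S s h = 0 := by
  rw [S_hor hX (reg_sq hXd R s hs) (reg_even hXd R), (R.fl s hs).1, (R.fl s hs).2, zmod2_self]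

include hXd hX R in
theorem S_int {s t : Pt} (hs : s ∈ W) (ht : t ∈ W) (hst : nb s t) {z : ℤ} (hz : z = h + 1 ∨ z = h - 1) :
    S (mid s t) z = 0 := by
  have he := reg_even hXd R
  rw [S_ver hX (reg_sq hXd R s hs) hst (by omega)]
  rcases hz with rfl | rfl
  · rw [(R.fl s hs).2, (R.fl t ht).2, zmod2_self]
  · rw [(R.fl s hs).1, (R.fl t ht).1, zmod2_self]

include hXd hX R in
/-- (F2) an edge of the boundary curve is an edge of `S` -/
theorem S_bdry {s t : Pt} (hs : s ∈ W) (ht : t ∉ W) (hst : nb s t) :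
    ∃ z, (z = h + 1 ∨ z = h - 1) ∧ S (mid s t) z ≠ 0 := by
  have he := reg_even hXd R
  by_contra hcon
  push Not at hcon
  have h1 := hcon (h + 1) (Or.inl rfl)
  have h2 := hcon (h - 1) (Or.inr rfl)
  rw [S_ver hX (reg_sq hXd R s hs) hst (by omega)] at h1 h2
  rw [(R.fl s hs).2] at h1
  rw [(R.fl s hs).1] at h2
  exact R.out s hs t ht hst ⟨(zmod2_eq_of_add h2).symm, (zmod2_eq_of_add h1).symm⟩

include hXd R in
/-- the boundary curve, at the middle of two neighbours -/
theorem c_mid {s t : Pt} (hs : s ∈ W) (ht : t ∉ W) (hst : nb s t) : bd2 (ind W) (mid s t) = 1 := by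
  rw [(bd2_mid (reg_sq hXd R s hs) hst).2.2, ind_mem hs, ind_not ht, add_zero]

/-- an edge with nonzero `bd2 (ind W)` has exactly one side in `W` -/
theorem c_sides {p : Pt} (hW : ∀ s ∈ W, Sq s) (hp : bd2 (ind W) p ≠ 0) :
    ∃ s t, s ∈ W ∧ t ∉ W ∧ nb s t ∧ mid s t = p := by
  have hed := bd2_ed (fun p hp => hW p (ind_ne hp)) hp
  obtain ⟨s, t, hs, ht, hst, hm, hb⟩ := sides hed
  rw [hb] at hp
  by_cases h1 : s ∈ W
  · refine ⟨s, t, h1, fun h2 => ?_, hst, hm⟩
    rw [ind_mem h1, ind_mem h2] at hp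
    exact hp (by decide)
  · refine ⟨t, s, ?_, h1, hst.symm, ?_⟩
    · by_contra h2
      rw [ind_not h1, ind_not h2] at hp
      exact hp (by decide)
    · rw [← hm]
      unfold mid
      ext
      · simp only; rw [add_comm]
      · simp only; rw [add_comm]

include hXd hX R in
/-- (F3) an edge with a coface in `S` and a coface in the disc lies on the boundary curve -/
theorem F3 {p : Pt} {z : ℤ} {q : Pt} (hc : Cf p z q h) (hq : q ∈ W) {q' : Pt} {z' : ℤ}
    (hc' : Cf p z q' z') (hS' : S q' z' ≠ 0) (hD1 : D1 p z) : z = h ∧ bd2 (ind W) p = 1 := by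
  have he := reg_even hXd R
  have hqs := reg_sq hXd R q hq
  have hz : z = h ∧ Ed p := by
    unfold Cf at hc
    unfold Sq at hqs
    rcases hc with ⟨h1, h2, h3⟩ | ⟨h1, h2, h3⟩ | ⟨h1, h2, h3⟩
    · refine ⟨h3.symm, Or.inl ⟨h1, ?_⟩⟩
      rcases h2 with rfl | rfl
      · exact hqs.2
      · exact hqs.2
    · refine ⟨h3.symm, Or.inr ⟨?_, h1⟩⟩
      rcases h2 with rfl | rfl
      · exact hqs.1
      · exact hqs.1
    · omega
  obtain ⟨rfl, hed⟩ := hz
  refine ⟨rfl, ?_⟩
  obtain ⟨s, t, hs, ht, hst, hm, hb, hcf⟩ := sides' hed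
  by_contra hne
  rw [hb] at hne
  have hboth : s ∈ W ∧ t ∈ W := by
    rw [hcf _ _ _ he] at hc
    rcases hc with ⟨h1 | h1, _⟩ | ⟨_, h1⟩
    · subst h1
      refine ⟨hq, ?_⟩
      by_contra h2
      rw [ind_mem hq, ind_not h2] at hne
      exact hne (by decide)
    · subst h1
      refine ⟨?_, hq⟩
      by_contra h2
      rw [ind_mem hq, ind_not h2] at hne
      exact hne (by decide)
    · omega
  rw [hcf _ _ _ he] at hc'
  rcases hc' with ⟨h1 | h1, h2⟩ | ⟨h1, h2⟩
  · subst h1; subst h2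
    exact hS' (S_on_W hXd hX R hboth.1)
  · subst h1; subst h2
    exact hS' (S_on_W hXd hX R hboth.2)
  · subst h1
    rw [← hm] at hS'
    exact hS' (S_int hXd hX R hboth.1 hboth.2 hst h2)

/-- two-dimensional cells near a vertex -/
theorem near_sq {x y zv : ℤ} (hx : x % 2 = 0) (hy : y % 2 = 0) {p : Pt} {z : ℤ}
    (hn : Nr (x, y) zv p z) (hp : Sq p) :
    p = (x + 1, y + 1) ∨ p = (x + 1, y - 1) ∨ p = (x - 1, y + 1) ∨ p = (x - 1, y - 1) := by
  obtain ⟨p1, p2⟩ := p
  unfold Nr at hn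
  unfold Sq at hp
  simp only at hn hp
  rw [abs_le, abs_le] at hn
  simp only [Prod.mk.injEq]
  omega

theorem near_ed {x y zv : ℤ} (hx : x % 2 = 0) (hy : y % 2 = 0) {p : Pt} {z : ℤ}
    (hn : Nr (x, y) zv p z) (hp : Ed p) :
    p = (x + 1, y) ∨ p = (x - 1, y) ∨ p = (x, y + 1) ∨ p = (x, y - 1) := by
  obtain ⟨p1, p2⟩ := p
  unfold Nr at hn
  unfold Ed at hp
  simp only at hn hp
  rw [abs_le, abs_le] at hn
  simp only [Prod.mk.injEq]
  omega

include hS hXd hX R in
/-- (F4) a vertex common to `S` and the disc lies on the boundary curve; otherwise all four squares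
belong to `W` and `S` has no square there -/
theorem F4 {x y : ℤ} (hx : x % 2 = 0) (hy : y % 2 = 0) (hnc : ¬ OnC (bd2 (ind W)) (x, y))
    {q : Pt} (hq : q ∈ W) (hqn : Nr (x, y) h q h) :
    ((x + 1, y + 1) ∈ W ∧ (x + 1, y - 1) ∈ W ∧ (x - 1, y + 1) ∈ W ∧ (x - 1, y - 1) ∈ W) ∧
      ∀ p z, Nr (x, y) h p z → S p z = 0 := by
  have hall : (x + 1, y + 1) ∈ W ∧ (x + 1, y - 1) ∈ W ∧ (x - 1, y + 1) ∈ W ∧ (x - 1, y - 1) ∈ W := by
    rcases not_OnC hx hy hnc with h1 | h1
    · exact h1
    · exfalso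
      rcases near_sq hx hy hqn (reg_sq hXd R q hq) with rfl | rfl | rfl | rfl
      · exact h1.1 hq
      · exact h1.2.1 hq
      · exact h1.2.2.1 hq
      · exact h1.2.2.2 hq
  refine ⟨hall, ?_⟩
  intro p z hn
  by_contra hne
  obtain ⟨h1, h2, h3, h4⟩ := hall
  have he := reg_even hXd R
  have hz : z = h ∨ z = h + 1 ∨ z = h - 1 := by
    have := hn.2.2
    rw [abs_le] at this
    omega
  rcases hS.dim p z hne with ⟨hp, hz2⟩ | ⟨hp, hz2⟩
  · have : z = h := by omega
    subst this
    rcases near_sq hx hy hn hp with rfl | rfl | rfl | rfl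
    · exact hne (S_on_W hXd hX R h1)
    · exact hne (S_on_W hXd hX R h2)
    · exact hne (S_on_W hXd hX R h3)
    · exact hne (S_on_W hXd hX R h4)
  · have hz' : z = h + 1 ∨ z = h - 1 := by omega
    have hW := reg_sq hXd R
    rcases near_ed hx hy hn hp with rfl | rfl | rfl | rfl
    · obtain ⟨s, hs, t, ht, hst, hm⟩ := (IntE_h hW (by omega : (x + 1) % 2 = 1) hy).2 ⟨h1, h2⟩
      rw [← hm] at hne
      exact hne (S_int hXd hX R hs ht hst hz')
    · obtain ⟨s, hs, t, ht, hst, hm⟩ := (IntE_h hW (by omega : (x - 1) % 2 = 1) hy).2 ⟨h3, h4⟩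
      rw [← hm] at hne
      exact hne (S_int hXd hX R hs ht hst hz')
    · obtain ⟨s, hs, t, ht, hst, hm⟩ := (IntE_v hW hx (by omega : (y + 1) % 2 = 1)).2 ⟨h1, h3⟩
      rw [← hm] at hne
      exact hne (S_int hXd hX R hs ht hst hz')
    · obtain ⟨s, hs, t, ht, hst, hm⟩ := (IntE_v hW hx (by omega : (y - 1) % 2 = 1)).2 ⟨h2, h4⟩
      rw [← hm] at hne
      exact hne (S_int hXd hX R hs ht hst hz')

include hS hXd hX R in
/-- (F5) no pinching -/
theorem no_pinch {x y σ : ℤ} (hx : x % 2 = 0) (hy : y % 2 = 0) (hσ : σ = 1 ∨ σ = -1)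
    (h1 : (x + σ, y + 1) ∈ W) (h3 : (x - σ, y - 1) ∈ W) (h2 : (x - σ, y + 1) ∉ W)
    (h4 : (x + σ, y - 1) ∉ W) : False := by
  have he := reg_even hXd R
  have n21 : nb (x - σ, y + 1) (x + σ, y + 1) := by
    rcases hσ with rfl | rfl
    · left; ext <;> simp only; ring
    · right; left; ext <;> simp only; ring
  have n23 : nb (x - σ, y + 1) (x - σ, y - 1) := by
    right; right; right; ext <;> simp only; ring
  have n34 : nb (x - σ, y - 1) (x + σ, y - 1) := by
    rcases hσ with rfl | rfl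
    · left; ext <;> simp only; ring
    · right; left; ext <;> simp only; ring
  have m21 : mid (x - σ, y + 1) (x + σ, y + 1) = (x, y + 1) := by
    unfold mid; ext <;> simp only <;> omega
  have m23 : mid (x - σ, y + 1) (x - σ, y - 1) = (x - σ, y) := by
    unfold mid; ext <;> simp only <;> omega
  have m34 : mid (x - σ, y - 1) (x + σ, y - 1) = (x, y - 1) := by
    unfold mid; ext <;> simp only <;> omega
  have sq2 : Sq (x - σ, y + 1) := by
    unfold Sq; rcases hσ with rfl | rfl <;> simp only <;> omega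
  have sq3 : Sq (x - σ, y - 1) := reg_sq hXd R _ h3
  let Y : Pt → ℤ → ZMod 2 := fun p z =>
    if p = (x - σ, y + 1) ∧ (z = h + 1 ∨ z = h - 1) then X p z + a else 0
  have hY2 : ∀ z, (z = h + 1 ∨ z = h - 1) → Y (x - σ, y + 1) z = X (x - σ, y + 1) z + a :=
    fun z hz => if_pos ⟨rfl, hz⟩
  have hY0 : ∀ p z, p ≠ (x - σ, y + 1) → Y p z = 0 := fun p z hp => if_neg (fun h' => hp h'.1)
  have hYn : ∀ p z, Y p z ≠ 0 → p = (x - σ, y + 1) ∧ (z = h + 1 ∨ z = h - 1) := by
    intro p z h'
    by_contra hcon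
    exact h' (if_neg hcon)
  classical
  let T : Pt → ℤ → ZMod 2 := fun p z => if Nr (x, y) h p z then bd Y p z else 0
  have hv : Vx (x, y) := ⟨hx, hy⟩
  have hTn : ∀ p z, Nr (x, y) h p z → T p z = bd Y p z := fun p z hn => if_pos hn
  have fl1 := R.fl _ h1
  have fl3 := R.fl _ h3
  have Xa : ∀ (t : Pt) (z : ℤ), t ∈ W → (z = h + 1 ∨ z = h - 1) → X t z = a := by
    intro t z ht hz
    rcases hz with rfl | rfl
    · exact (R.fl t ht).2
    · exact (R.fl t ht).1
  have hTle : ∀ p z, T p z ≠ 0 → S p z ≠ 0 := by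
    intro p z hT
    have hn : Nr (x, y) h p z := by
      by_contra hn
      exact hT (if_neg hn)
    rw [hTn p z hn] at hT
    have hz : z = h ∨ z = h + 1 ∨ z = h - 1 := by
      have := hn.2.2
      rw [abs_le] at this
      omega
    rcases hz with rfl | hz
    · rw [bd_even he] at hT
      have e0 : (fun q => Y q z) = fun _ => 0 := by
        funext q
        by_contra h'
        have := (hYn q z h').2
        omega
      rw [e0, bd2_zero, zero_add] at hT
      have hp : p = (x - σ, y + 1) := by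
        by_contra hp
        apply hT
        rw [hY0 p _ hp, hY0 p _ hp, add_zero]
      subst hp
      rw [hY2 _ (Or.inl rfl), hY2 _ (Or.inr rfl)] at hT
      rw [S_hor hX sq2 he]
      intro h0
      apply hT
      have := zmod2_self a
      linear_combination h0 + this
    · rw [bd_odd (by omega)] at hT
      have hed : Ed p := bd2_ed (a := fun q => Y q z) (fun q hq => by
        rw [(hYn q z hq).1]; exact sq2) hT
      -- the sides of `p`
      have key : ∀ s t, Sq s → Sq t → nb s t → mid s t = p → s = (x - σ, y + 1) → t ∈ W ∧ S p z ≠ 0 ∨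
          bd2 (fun q => Y q z) p = 0 ∨ False := by
        intro s t hs ht hst hm hse
        left
        subst hse
        have htW : t ∈ W := by
          obtain ⟨t1, t2⟩ := t
          have hn' := hn
          rw [← hm] at hn'
          unfold Nr mid at hn'
          simp only at hn'
          rw [abs_le, abs_le] at hn'
          unfold nb at hst
          simp only [Prod.mk.injEq] at hst
          have : (t1 = x + σ ∧ t2 = y + 1) ∨ (t1 = x - σ ∧ t2 = y - 1) := by
            rcases hσ with rfl | rfl <;> omega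
          rcases this with ⟨rfl, rfl⟩ | ⟨rfl, rfl⟩
          · exact h1
          · exact h3
        refine ⟨htW, ?_⟩
        intro h0
        apply hT
        have hb := (bd2_mid hs hst).2.2 (fun q => Y q z)
        rw [hm] at hb
        rw [hb]
        rw [hY2 z hz, hY0 t z (fun h' => h2 (h' ▸ htW)), add_zero]
        rw [← hm, S_ver hX hs hst (by omega), Xa t z htW hz] at h0
        exact h0
      obtain ⟨s, t, hs, ht, hst, hm, hb⟩ := sides hed
      by_cases hse : s = (x - σ, y + 1)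
      · rcases key s t hs ht hst hm hse with h' | h' | h'
        · exact h'.2
        · exact absurd h' hT
        · exact h'.elim
      · by_cases hte : t = (x - σ, y + 1)
        · rcases key t s ht hs hst.symm (by
            rw [← hm]; unfold mid; ext
            · simp only; rw [add_comm]
            · simp only; rw [add_comm]) hte with h' | h' | h'
          · exact h'.2
          · exact absurd h' hT
          · exact h'.elim
        · exfalso
          apply hT
          rw [hb]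
          rw [hY0 s z hse, hY0 t z hte, add_zero]
  have hcl : ∀ p z, D1 p z → Nr (x, y) h p z → bd T p z = 0 := by
    intro p z _ hn
    rw [bd_congr (B := bd Y) (fun q z' hc => hTn q z' (Nr_cf hv he hn hc)), bd_bd]
  have near : ∀ p1 p2 z, |p1 - x| ≤ 1 → |p2 - y| ≤ 1 → (z = h + 1 ∨ z = h - 1) →
      Nr (x, y) h (p1, p2) z := by
    intro p1 p2 z e1 e2 hz
    refine ⟨e1, e2, ?_⟩
    rw [abs_le]; omega
  rcases hS.m2 (x, y) h hv he T hTle hcl with hc | hc
  · -- `T = 0`: the square `s2` is flat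
    apply R.out _ h1 _ h2 n21.symm
    have : ∀ z, (z = h + 1 ∨ z = h - 1) → X (x - σ, y + 1) z = a := by
      intro z hz
      have e := hc (x, y + 1) z (near _ _ _ (by simp) (by simp) hz)
      rw [hTn _ _ (near _ _ _ (by simp) (by simp) hz), bd_odd (by omega), ← m21,
        (bd2_mid sq2 n21).2.2] at e
      rw [hY2 z hz, hY0 _ z (by
        intro h'; have := congrArg Prod.fst h'; simp only at this; omega), add_zero] at e
      exact zmod2_eq_of_add e
    exact ⟨this _ (Or.inr rfl), this _ (Or.inl rfl)⟩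
  · -- `T = S`: the square `s4` is flat
    apply R.out _ h3 _ h4 n34
    have : ∀ z, (z = h + 1 ∨ z = h - 1) → X (x + σ, y - 1) z = a := by
      intro z hz
      have e := hc (x, y - 1) z (near _ _ _ (by simp) (by simp) hz)
      rw [hTn _ _ (near _ _ _ (by simp) (by simp) hz), bd_odd (by omega), ← m34,
        (bd2_mid sq3 n34).2.2, S_ver hX sq3 n34 (by omega), Xa _ z h3 hz] at e
      rw [hY0 _ z (by
        intro h'; have := congrArg Prod.snd h'; simp only at this; omega), hY0 _ z (by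
        intro h'; have := congrArg Prod.snd h'; simp only at this; omega), add_zero] at e
      exact (zmod2_eq_of_add e.symm).symm
    exact ⟨this _ (Or.inr rfl), this _ (Or.inl rfl)⟩

end region

end Crest.Agent.R096.Lc_451
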