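import Crest.Agent.R096.Mmx1_662

/-!
# R096 (row 96), P4-MESH: the mixed mesh with a class of charts for the edges (helper662)

`mesh_mixA` : `mesh_mix` where the requirement `hS1` on the edges is only asked for the given charts
and their flips (`Af` : any class of charts which contains the given ones and is stable under the
flip, e.g. affine charts).
-/

set_option autoImplicit false

open Set Metric Filter Topology

namespace Crest.Agent.R096.Mmx_662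

open Crest.Agent.R096.Ce_537 Crest.Agent.R096.Bd_416

open scoped Classical

set_option linter.unusedSectionVars false

variable {Q : Type} [PartialOrder Q] {dim : Q → ℕ} {J Fam : Type}
variable {E : Type*} [NormedAddCommGroup E] [NormedSpace ℝ E]
variable {C : Cmb Q dim J Fam} {K : Q → Set E} {D : Set Q} {g : Gd E J}
  {P : ∀ q, C.I q → Set E} {c : ∀ q, C.I q → E → ℝ} {b : ℝ} {Ω : Set E}

/-- the chart or its flip starts at the base vertex -/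
theorem exists_flipA (X : Cplx Ω Q dim K) {τ : Q} (hd : dim τ = 1) (e : PLEquiv (cube 1) (K τ))
    (he : e.f '' sph 1 = bdS K τ) {Y : Type*} [PseudoMetricSpace Y] {Fr : Set (E → Y)} {Lg : (E → Y) → ℝ}
    (hg : ∀ B ∈ Fr, ∀ z ∈ K τ, MB B id (Lg B) e.g (K τ) z) :
    ∃ e' : PLEquiv (cube 1) (K τ), e'.f '' sph 1 = bdS K τ ∧ e'.f (fun _ => -1) ∈ K (C.o τ) ∧
      (∀ B ∈ Fr, ∀ z ∈ K τ, MB B id (Lg B) e'.g (K τ) z) ∧ (e' = e ∨ e' = negE.trans e) := by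
  obtain ⟨z, hz⟩ := (X.isBall (C.o τ)).nonempty
  have hzS : z ∈ bdS K τ := mem_biUnion (show C.o τ ∈ {j | j < τ} from C.o_lt τ hd.ge) hz
  rw [← he] at hzS
  obtain ⟨v, hv, rfl⟩ := hzS
  rcases (abs_eq zero_le_one).1 (mem_sph1.1 hv) with h | h
  · refine ⟨negE.trans e, ?_, ?_, fun B hB z hz => ?_, Or.inr rfl⟩
    · rw [← he]
      apply Set.Subset.antisymm
      · rintro _ ⟨u, hu, rfl⟩
        refine ⟨-u, mem_sph1.2 ?_, rfl⟩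
        show |-(u 0)| = 1
        rw [abs_neg]; exact mem_sph1.1 hu
      · rintro _ ⟨u, hu, rfl⟩
        refine ⟨-u, mem_sph1.2 ?_, ?_⟩
        · show |-(u 0)| = 1
          rw [abs_neg]; exact mem_sph1.1 hu
        · show e.f (- -u) = e.f u
          rw [neg_neg]
    · show e.f (-(fun _ => -1)) ∈ _
      have hv' : (-(fun _ => -1) : Fin 1 → ℝ) = v := by
        funext k; rw [Subsingleton.elim k 0, h]; simp
      rw [hv']; exact hz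
    · filter_upwards [hg B hB z hz] with y hy
      show dist (-(e.g y)) (-(e.g z)) ≤ _
      rw [dist_neg_neg]; exact hy
  · refine ⟨e, he, ?_, hg, Or.inl rfl⟩
    have hv' : (fun _ => -1 : Fin 1 → ℝ) = v := by
      funext k; rw [Subsingleton.elim k 0, h]
    rw [hv']; exact hz

section mix

variable {R : Set Q} {g0 : Gd E J} {P0 : ∀ q, C.I q → Set E} {c0 : ∀ q, C.I q → E → ℝ}
  {Y : Type*} [PseudoMetricSpace Y]

/-- **THE MIXED MESH** with a class `Af` of charts for the edges -/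
theorem mesh_mixA (X : Cplx Ω Q dim K) (hR : ∀ q ∈ R, ∀ p < q, p ∈ R)
    (H0 : Inv C K R g0 P0 c0) {b : ℕ → ℝ} (hb0 : ∀ n, 0 < b n) (hb2 : ∀ n, b n < 1/2)
    {wt : J → ℝ} (hw : ∀ j, 0 < wt j) {Λ : ℕ → Q → (E → Y) → ℝ} (Fr : Q → Set (E → Y))
    (hΛ0 : ∀ n q, ∀ B ∈ Fr q, 0 ≤ Λ n q B)
    (hΛs : ∀ n q, ∀ B ∈ Fr q, Λ n q B / (2 * b n) ≤ Λ (n + 1) q B)
    (hFr : ∀ {σ τ : Q}, σ < τ → Fr τ ⊆ Fr σ)
    (hΛR : ∀ q ∈ R, ∀ B ∈ Fr q, ∀ x, ∀ z ∈ K q,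
      LB B (Λ 0 q B / wt (C.col q x)) (c0 q x) (K q) z)
    {ε : ℝ} (he0 : 0 < ε) (he1 : ε < 1) {δ : ℝ} (hδ : 0 ≤ δ) (hδ1 : δ < 1)
    (N : Set Q) (hN2 : ∀ τ ∈ N, 2 ≤ dim τ)
    (u : Q → ℝ) (hu : ∀ τ ∉ R, τ ∉ N → 0 < u τ)
    (hus : ∀ τ ∉ R, τ ∉ N → u τ * ∑ x, wt (C.col τ x) ≤ 1/2)
    (Lf Lg : Q → (E → Y) → ℝ) (hLf : ∀ τ ∉ R, τ ∉ N → ∀ B ∈ Fr τ, 0 ≤ Lf τ B)
    (e : ∀ τ, 1 ≤ dim τ → PLEquiv (cube (dim τ)) (K τ))
    (he : ∀ τ ∉ R, τ ∉ N → ∀ hd : 1 ≤ dim τ, (e τ hd).f '' sph (dim τ) = bdS K τ)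
    (hef : ∀ τ ∉ R, τ ∉ N → ∀ hd : 1 ≤ dim τ, ∀ B ∈ Fr τ, ∀ ω ∈ sph (dim τ),
      MB id B (Lf τ B) (e τ hd).f (sph (dim τ)) ω)
    (heg : ∀ τ ∉ R, τ ∉ N → ∀ hd : 1 ≤ dim τ, ∀ B ∈ Fr τ, ∀ z ∈ K τ,
      MB B id (Lg τ B) (e τ hd).g (K τ) z)
    (k : ∀ τ, C.I τ → ℕ) (hk : ∀ τ ∉ R, dim τ = 1 → Function.Injective (k τ))
    (ord : ∀ τ ∉ R, dim τ = 1 → ∀ x x', x ≠ x' → C.fam (C.col τ x) = C.fam (C.col τ x') →
      (k τ x' < k τ x → C.side τ x x' = 1) ∧ (k τ x < k τ x' → C.side τ x x' = 0))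
    (hΛ1 : ∀ τ ∉ R, dim τ = 1 → ∀ B ∈ Fr τ,
      Lg τ B / (4 * (1 - δ) * (1 - ε) * u τ) ≤ Λ 2 τ B)
    (Bb : Q → (E → Y) → ℝ)
    (hBb : ∀ τ ∉ R, τ ∉ N → 2 ≤ dim τ → ∀ B ∈ Fr τ, ∀ σ < τ, Λ (dim τ) σ B ≤ Bb τ B)
    (hΛ2 : ∀ τ ∉ R, τ ∉ N → 2 ≤ dim τ → ∀ B ∈ Fr τ,
      7 * max (Bb τ B * Lf τ B) (1 / u τ) / (2 * b (dim τ)) * Lg τ B ≤ Λ (dim τ + 1) τ B)
    (Rl : (∀ q, C.I q → E → ℝ) → ∀ τ, C.I τ → C.I τ → Prop)
    (hRl : ∀ D g P c (_ : Inv C K D g P c), ∀ τ ∉ R, τ ∉ N → 2 ≤ dim τ → (∀ σ < τ, σ ∈ D) →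
      ∃ kk : C.I τ → ℕ, Function.Injective kk ∧ ∀ x x', Rl c τ x x' → kk x' < kk x)
    (hRI : ∀ c τ x x', Ins C K c τ x x' → Rl c τ x x')
    (Spec : ∀ q, Lam (K q) (C.I q) → Prop)
    (hS0 : ∀ τ ∉ R, dim τ = 0 → ∀ M, Spec τ M)
    (Af : ∀ (m : ℕ) (τ : Q), PLEquiv (cube m) (K τ) → Prop)
    (hAe : ∀ τ ∉ R, ∀ hd : dim τ = 1, Af (dim τ) τ (e τ hd.ge))
    (hAn : ∀ τ (e : PLEquiv (cube 1) (K τ)), Af 1 τ e → Af 1 τ (negE.trans e))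
    (hS1 : ∀ τ ∉ R, dim τ = 1 → ∀ (e : PLEquiv (cube 1) (K τ)), Af 1 τ e →
      e.f '' sph 1 = bdS K τ →
      e.f (fun _ => -1) ∈ K (C.o τ) → ∀ (p : C.I τ → ℝ)
      (hE : Ed (fun i => 4 * (1 - δ) * (1 - ε) * u τ * wt (C.col τ i)) p),
      (∀ i, |p i| + 4 * (1 - δ) * (1 - ε) * u τ * wt (C.col τ i) / 2 < 1 - δ) →
      (∀ i j, k τ j < k τ i → p j < p i) → Spec τ ((edgeLam hE).pull e.symm (X.isClosed τ)))
    (hS2 : ∀ D g P c (H : Inv C K D g P c), ∀ τ, (hd : 2 ≤ dim τ) →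
      (∀ q ∈ D, Trk C K R g0 P0 c0 b Spec Fr wt Λ (dim τ) q g (P q) (c q)) →
      ∀ (hR : τ ∉ R) (hN : τ ∉ N) (hτ : ∀ σ < τ, σ ∈ D) (κ : ℝ) (ρ : C.I τ → ℝ)
      (Dp : Dep (bdLam H X τ hτ) κ (b (dim τ)) (fun x => u τ * wt (C.col τ x)) ρ),
      (∀ x x', Rl c τ x x' → ρ x' < ρ x) →
      Spec τ (Dp.fillBall (e τ (by omega)) (he τ hR hN (by omega))))
    (ruleN : ∀ D g P c (H : Inv C K D g P c), ∀ τ ∈ N,
      (∀ q ∈ D, Trk C K R g0 P0 c0 b Spec Fr wt Λ (dim τ) q g (P q) (c q)) →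
      τ ∉ R → ∀ hτ : ∀ σ < τ, σ ∈ D,
      ∃ (e' : PLEquiv (cube (dim τ)) (K τ)) (he' : e'.f '' sph (dim τ) = bdS K τ)
        (κ : ℝ) (h ρ : C.I τ → ℝ) (Dp : Dep (bdLam H X τ hτ) κ (b (dim τ)) h ρ),
        (∀ x x', Rl c τ x x' → ρ x' < ρ x) ∧ Spec τ (Dp.fillBall e' he') ∧
        ∀ B ∈ Fr τ, ∀ x, ∀ z ∈ K τ,
          LB B (Λ (dim τ + 1) τ B / wt (C.col τ x)) ((Dp.fillBall e' he').c x) (K τ) z)
    (n : ℕ) : ∃ g P c, Inv C K (R ∪ {q | dim q < n}) g P c ∧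
      ∀ q ∈ R ∪ {q | dim q < n}, Trk C K R g0 P0 c0 b Spec Fr wt Λ n q g (P q) (c q) := by
  refine mesh_spec X hR H0 hb0 hb2 hw hΛs hΛR (fun n D g P c H hT τ hd hτR hτ => ?_) n
  subst hd
  rcases Nat.lt_or_ge (dim τ) 1 with h1 | h1
  · have h0 : dim τ = 0 := by omega
    have := C.vert τ h0
    exact ⟨emptyLam (K τ) (C.I τ), newCell_empty _, hS0 τ hτR h0 _,
      fun _ _ x => isEmptyElim x⟩
  rcases Nat.lt_or_ge (dim τ) 2 with h2 | h2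
  · have hd : dim τ = 1 := by omega
    have hτN : τ ∉ N := fun h => by have := hN2 τ h; omega
    have key : ∃ e1 : PLEquiv (cube 1) (K τ), Af 1 τ e1 ∧ e1.f '' sph 1 = bdS K τ ∧
        ∀ B ∈ Fr τ, ∀ z ∈ K τ, MB B id (Lg τ B) e1.g (K τ) z := by
      have hgen : ∀ m, dim τ = m → m = 1 → ∃ e1 : PLEquiv (cube m) (K τ), Af m τ e1 ∧
          e1.f '' sph m = bdS K τ ∧ ∀ B ∈ Fr τ, ∀ z ∈ K τ, MB B id (Lg τ B) e1.g (K τ) z := by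
        rintro m rfl hm
        exact ⟨e τ hm.ge, hAe τ hτR hm, he τ hτR hτN hm.ge, heg τ hτR hτN hm.ge⟩
      exact hgen 1 hd rfl
    obtain ⟨e1, hA1, he1', hg1⟩ := key
    obtain ⟨e2, he2, hb, hg2, hf2⟩ := exists_flipA (C := C) X hd e1 he1' hg1
    have hA2 : Af 1 τ e2 := by
      rcases hf2 with rfl | rfl
      · exact hA1
      · exact hAn τ e1 hA1
    obtain ⟨p, hE, hm, hp, hN⟩ := exists_newCell_edgeM H X hτ hd (hb0 _) (hb2 _) e2 he2 hb (k τ)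
      (hk τ hτR hd) (ord τ hτR hd) (fun x => wt (C.col τ x)) (fun x => hw _) (hu τ hτR hτN)
      (hus τ hτR hτN) he0 he1 hδ hδ1
    refine ⟨_, hN, hS1 τ hτR hd e2 hA2 he2 hb p hE hm hp, fun B hB x z hz => ?_⟩
    refine (edge_LB hE e2 (X.isClosed τ) x (hg2 B hB) hz).mono ?_
    have h3 := hΛ1 τ hτR hd B hB
    rw [hd]
    have h4 := hw (C.col τ x)
    show Lg τ B / (4 * (1 - δ) * (1 - ε) * u τ * wt (C.col τ x)) ≤ Λ 2 τ B / wt (C.col τ x)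
    rw [← div_div]
    exact div_le_div_of_nonneg_right h3 h4.le
  by_cases hτN : τ ∈ N
  · obtain ⟨e', he', κ, h, ρ, Dp, hρ, hS, hL⟩ := ruleN D g P c H τ hτN hT hτR hτ
    exact ⟨Dp.fillBall e' he', newCell_cone H X hτ h2 _ _ Dp
      fun x x' hne hf h3 h4 h5 => hρ x x' (hRI _ _ _ _ ⟨hne, hf, h3, h4, h5⟩), hS, hL⟩
  · have hC := Cst.mk' (hb0 (dim τ)) (hb2 (dim τ))
    obtain ⟨kk, hkk, hkI⟩ := hRl D g P c H τ hτR hτN h2 hτ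
    obtain ⟨ρ, Dp, hρ⟩ := Cw_298.exists_dep (bdLam H X τ hτ) hC kk hkk
      (fun x => wt (C.col τ x)) (fun x => hw _) (hu τ hτR hτN) (hus τ hτR hτN)
    have hρ' : ∀ x x', Rl c τ x x' → ρ x' < ρ x := by
      intro x x' h
      have h4 := hρ x x' (hkI x x' h)
      have h5 := mul_pos (hu τ hτR hτN) (hw (C.col τ x))
      have h6 := mul_pos (hu τ hτR hτN) (hw (C.col τ x'))
      linarith
    refine ⟨Dp.fillBall (e τ h1) (he τ hτR hτN h1), newCell_cone H X hτ h2 _ _ Dp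
      fun x x' hne hf h3 h4 h5 => hρ' x x' (hRI _ _ _ _ ⟨hne, hf, h3, h4, h5⟩),
      hS2 D g P c H τ h2 hT hτR hτN hτ _ ρ Dp hρ', fun B hB x z hz => ?_⟩
    have hwx := hw (C.col τ x)
    have hB0 : 0 ≤ Bb τ B :=
      (hΛ0 _ _ B (hFr (C.o_lt τ h1) hB)).trans (hBb τ hτR hτN h2 B hB (C.o τ) (C.o_lt τ h1))
    have hL : ∀ ω ∈ bdS K τ,
        LB B (Bb τ B / wt (C.col τ x)) ((bdLam H X τ hτ).c x) (bdS K τ) ω := by
      intro ω hω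
      refine H.LB_cbd X hτ x (div_nonneg hB0 hwx.le) fun σ h y hy hz => ?_
      refine ((hT σ (hτ σ h)).ll B (hFr h hB) y ω hz).mono ?_
      have e1 : C.col σ y = C.col τ x := by rw [← hy, C.col_up]
      rw [e1]
      exact div_le_div_of_nonneg_right (hBb τ hτR hτN h2 B hB σ h) hwx.le
    refine (Dp.fillBall_LB (e τ h1) (he τ hτR hτN h1) x (div_nonneg hB0 hwx.le)
      (hLf τ hτR hτN B hB) hL (hef τ hτR hτN h1 B hB) (heg τ hτR hτN h1 B hB) hz).mono ?_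
    have h3 := hΛ2 τ hτR hτN h2 B hB
    refine le_trans (le_of_eq ?_) (div_le_div_of_nonneg_right h3 hwx.le)
    have e2 : max (Bb τ B / wt (C.col τ x) * Lf τ B) (1 / (u τ * wt (C.col τ x)))
        = max (Bb τ B * Lf τ B) (1 / u τ) / wt (C.col τ x) := by
      rw [← max_div_div_right hwx.le, div_mul_eq_mul_div, div_div]
    show 7 * max (Bb τ B / wt (C.col τ x) * Lf τ B) (1 / (u τ * wt (C.col τ x))) /
      (2 * b (dim τ)) * Lg τ B = _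
    rw [e2]; ring

end mix

end Crest.Agent.R096.Mmx_662
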