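import Crest.Agent.R096.Sqt17_143
import Crest.Agent.R096.Pas4_753
import Crest.Agent.R96.Els1_538

/-!
Row 96 (S0127), helper143.  COMPOSITE B: **the transfer** of the bounds along the edges from the family of `Pos`
(753's `Pas3`, 538's `MeshG`, `PerfG.edgeD`) to the cells of the mesh in the good cube (any family `x' v'` in
which the 1-cells of the tiling are segments, e.g. 753's `AllC`).
-/

set_option autoImplicit false
set_option linter.unusedSectionVars false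
set_option linter.style.longLine false

open Set Metric Filter Topology MeasureTheory
open scoped ENNReal NNReal

namespace Crest.Agent.R096.Sqt_143

open Crest.AnalysisR.VecCalc3
open Crest.Agent.R096.Msh_715 (P I Tiling)
open Crest.Agent.R096.Sq_55 (E3 Sys w2)
open Crest.Agent.R096.Efi_296
open Crest.Agent.R096.Cbs_296
open Crest.Agent.R096.Pin_753
open Crest.Agent.R096.Pas_753
open Crest.Agent.R96.Coarse_538
open Crest.Agent.R96.Intr_538
open Crest.Agent.R96.Gdt_538 (MeshG)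
open Crest.Agent.R96.Lu_538 (Gmat)

noncomputable section

/-- the integral along a 1-cell of the tiling does not depend on the family in which it is a segment -/
theorem edge_transfer {OmR W : Set R3} {ι κi κe : Type*} {T : Tiling OmR ι} {x v : κi → R3}
    {x' v' : κe → R3} {a : R3} (hM : MeshG T x v a W) {F : R3 → ℝ≥0∞} {A : ℝ≥0∞}
    (hD : ∀ e, ∫⁻ σ in Ioc (0:ℝ) 1, F (a + x e + σ • v e) ≤ A) {c : (Te T).Cell}
    (hc : c.dim = 1) {i : κe} (hi : w2 '' c.set = seg x' v' a i) (hW : seg x' v' a i ⊆ W) :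
    ∫⁻ σ in Ioc (0:ℝ) 1, F (a + x' i + σ • v' i) ≤ A := by
  obtain ⟨h1, h2, h3⟩ := image_set T c
  obtain ⟨e, he⟩ := hM.cell _ h2 (h3.trans hc) (by rw [← h1, hi]; exact hW)
  have h4 : segment ℝ (a + x' i) (a + x' i + v' i) = segment ℝ (a + x e) (a + x e + v e) := by
    rw [← Crest.Agent.R96.Gdt_538.seg_eq_segment x' v' a i,
      ← Crest.Agent.R96.Gdt_538.seg_eq_segment x v a e, ← he, ← h1, hi]
  rw [(Crest.Agent.R96.Els_538.seg_int h4 F).2]
  exact hD e

/-- **the transfer**: the weak hypothesis `hg` of `Jt_near_loc`, `Jt_en_loc`, `line_longE` -/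
theorem hg_of_perf {OmR W : Set R3} {ι κi κe : Type*} {T : Tiling OmR ι} {x v : κi → R3}
    {x' v' : κe → R3} {a : R3} (hM : MeshG T x v a W) {p κ τ σ₀ η t s : ℝ} {f : R3 → R3}
    {D : R3 → R3 →L[ℝ] R3} {z b : R3} {L : R3 →L[ℝ] R3}
    (hP : PerfG x v p OmR f D κ τ σ₀ η t s a z b L) (hW : cel Cb z s ⊆ W) {s' : Finset ι}
    {me : EgS (Te T) s' → κe} (hme : ∀ c, w2 '' c.1.set = seg x' v' a (me c)) :
    ∀ c : EgS (Te T) s', seg x' v' a (me c) ⊆ cel Cb z s →
      ∫⁻ σ in Ioc (0:ℝ) 1, (cel Cb z s).indicator (fun y => ‖D y - L‖ₑ ^ p)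
        (a + x' (me c) + σ • v' (me c)) ≤ ENNReal.ofReal (η ^ p) := fun c hc =>
  edge_transfer hM hP.edgeD c.2.1 (hme c) (hc.trans hW)

/-- the transfer from 753's `Pos` -/
theorem hg_of_pos {p : ℝ} {Om La W : Set R3} {f : R3 → R3} {G : Fin 3 → R3 → R3} {ι : Type}
    {T : Tiling Om ι} {κi : Type} {x v : κi → R3} {κf : Type} {xf : κf → R3} {ef : κf → Fin 2 → R3}
    {Pf : κf → Set (ℝ × ℝ)} {κ τ σ₀ η₁ t s d σr : ℝ} {z b : (Fin 3 → ℤ) → R3}
    {L : (Fin 3 → ℤ) → R3 →L[ℝ] R3} {Q : Finset (Fin 3 → ℤ)} {a : R3}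
    (hp : Pos p Om La W f G T x v xf ef Pf κ τ σ₀ η₁ t s d σr z b L Q a) {k : Fin 3 → ℤ} (hk : k ∈ Q)
    (hW : cel Cb (z k) s ⊆ W) {κe : Type*} {x' v' : κe → R3} {s' : Finset ι}
    {me : EgS (Te T) s' → κe} (hme : ∀ c, w2 '' c.1.set = seg x' v' a (me c)) :
    ∀ c : EgS (Te T) s', seg x' v' a (me c) ⊆ cel Cb (z k) s →
      ∫⁻ σ in Ioc (0:ℝ) 1, (cel Cb (z k) s).indicator (fun y => ‖Gmat G y - L k‖ₑ ^ p)
        (a + x' (me c) + σ • v' (me c)) ≤ ENNReal.ofReal (η₁ ^ p) :=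
  hg_of_perf hp.mesh (hp.perf k hk) hW hme

end

end Crest.Agent.R096.Sqt_143
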