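import Crest.Agent.R096.Tl3_4
import Crest.Agent.R096.Pse4_316
import Crest.Agent.R096.Er4_594

/-! # Row 96, TINY-LOC (helper4), part 4: `TinyLoc` without hypotheses, and `SH3 → SH`. -/

set_option autoImplicit false
set_option linter.unusedSectionVars false

open Set Filter Topology Metric MeasureTheory
open scoped ENNReal

namespace Crest.Agent.R096.Tl_4

open Crest.Agent.R096.Brk1_582 Crest.Agent.R096.Brk2_582 Crest.Agent.R096.Brk3_582
open Crest.Agent.R096.Brk5_582 Crest.Agent.R096.Bsp_628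
open Crest.Agent.R096.SkC1_961 (E3 Hom3 FoamD)
open Crest.Agent.R096.Tms_582 (TinyLoc)
open Crest.Agent.R96.En10_199 (P3 P3_mp)
open Crest.Agent.R96.Sob7_199 (grad_of_wd)
open Crest.Agent.R096.Er_594
open Crest.Agent.R096.Sk_962 (SH)
open Crest.AnalysisR.VecCalc3 Crest.AnalysisR.Sobolev
open Crest.Agent.R96.Acl_392

variable {δ κ0 Rc c0 : ℝ}

theorem sh_of3 {p : ℝ} (hp : 1 ≤ p) {Om La : Set E3} (hO : IsOpen Om) {f : E3 → E3}
    {D : E3 → E3 →L[ℝ] E3} (h : SH3 p Om La f D) :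
    SH p (P3.symm ⁻¹' Om) (P3.symm ⁻¹' La) (r3 f) (fun j y => row (D (P3.symm y)) j) := by
  have hp0 : 0 < p := by linarith
  have hmp : MeasurePreserving P3.symm (volume : Measure R3) (volume : Measure E3) :=
    PiLp.volume_preserving_ofLp (Fin 3)
  have hem : MeasurableEmbedding P3.symm := P3.symm.toHomeomorph.measurableEmbedding
  have hOs := isOpen_symm_pre hO
  have hae : ∀ {F : Type} [TopologicalSpace F] {u : E3 → F},
      AEStronglyMeasurable u (volume.restrict Om) →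
      AEStronglyMeasurable (fun y => u (P3.symm y)) (volume.restrict (P3.symm ⁻¹' Om)) := by
    intro F _ u hu
    have h1 : Measure.map P3.symm (volume.restrict (P3.symm ⁻¹' Om)) = volume.restrict Om := by
      rw [← hem.restrict_map, hmp.map_eq]
    rw [← h1] at hu
    exact (hem.aestronglyMeasurable_map_iff).1 hu
  have hml : ∀ {u : R3 → R3}, AEStronglyMeasurable u (volume.restrict (P3.symm ⁻¹' Om)) →
      ∫⁻ y in P3.symm ⁻¹' Om, ‖u y‖ₑ ^ p ≠ ∞ →
      MemLp u (ENNReal.ofReal p) (volume.restrict (P3.symm ⁻¹' Om)) := by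
    intro u h1 h2
    refine ⟨h1, ?_⟩
    rw [eLpNorm_lt_top_iff_lintegral_rpow_enorm_lt_top (by simpa using hp0) (by simp)]
    rw [ENNReal.toReal_ofReal hp0.le]
    exact lt_top_iff_ne_top.2 h2
  have h22 : (2:ℝ≥0∞) ^ p ≠ ∞ := ENNReal.rpow_ne_top_of_nonneg hp0.le (by norm_num)
  refine ⟨homeo_of' h.homeo, hml ?_ ?_, fun j => grad_of_wd fun i => ?_, fun j => hml ?_ ?_⟩
  · have h1 := hae ((hom3_cont h.homeo).aestronglyMeasurable hO.measurableSet)
    exact P3.continuous.comp_aestronglyMeasurable h1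
  · have h1 : ∫⁻ y in P3.symm ⁻¹' Om, ‖r3 f y‖ₑ ^ p ≤
        2 ^ p * ∫⁻ y in P3.symm ⁻¹' Om, ‖f (P3.symm y)‖ₑ ^ p := by
      rw [← lintegral_const_mul' _ _ h22]
      apply lintegral_mono
      intro y
      change ‖P3 (f (P3.symm y))‖ₑ ^ p ≤ 2 ^ p * ‖f (P3.symm y)‖ₑ ^ p
      rw [← ENNReal.mul_rpow_of_nonneg _ _ hp0.le]
      apply ENNReal.rpow_le_rpow _ hp0.le
      rw [← ofReal_norm, ← ofReal_norm]
      refine (ENNReal.ofReal_le_ofReal (norm_P3_le _)).trans (le_of_eq ?_)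
      rw [ENNReal.ofReal_mul (by norm_num)]
      norm_num
    refine ne_top_of_le_ne_top (ENNReal.mul_ne_top h22 ?_) h1
    rw [← lint_P3_symm Om (fun x => ‖f x‖ₑ ^ p)]
    exact h.lp
  · have h1 := Crest.Agent.R96.En10_199.wd_comp_equiv (h.vwd i j) P3.symm hmp
    have h2 : (P3.symm.symm (Pi.single i (1:ℝ)) : R3) = EuclideanSpace.single i 1 := by
      rw [← Crest.Agent.R96.En10_199.P3_symm_single]
      exact P3.apply_symm_apply _
    rw [h2] at h1
    exact h1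
  · have h1 := hae h.aesm
    have h2 : Continuous fun L : E3 →L[ℝ] E3 => row L j := by
      have : (fun L : E3 →L[ℝ] E3 => row L j) = fun L => P3 (fun i => L (Pi.single i 1) j) := rfl
      rw [this]
      refine P3.continuous.comp (continuous_pi fun i => ?_)
      exact (continuous_apply (A := fun _ : Fin 3 => ℝ) j).comp
        (continuous_eval_const (F := E3 →L[ℝ] E3) (Pi.single i (1:ℝ) : E3))
    exact h2.comp_aestronglyMeasurable h1
  · have h1 : ∫⁻ y in P3.symm ⁻¹' Om, ‖row (D (P3.symm y)) j‖ₑ ^ p ≤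
        2 ^ p * ∫⁻ y in P3.symm ⁻¹' Om, ‖D (P3.symm y)‖ₑ ^ p := by
      rw [← lintegral_const_mul' _ _ h22]
      apply lintegral_mono
      intro y
      change ‖P3 (fun i => D (P3.symm y) (Pi.single i 1) j)‖ₑ ^ p ≤ 2 ^ p * ‖D (P3.symm y)‖ₑ ^ p
      rw [← ENNReal.mul_rpow_of_nonneg _ _ hp0.le]
      apply ENNReal.rpow_le_rpow _ hp0.le
      rw [← ofReal_norm, ← ofReal_norm]
      refine (ENNReal.ofReal_le_ofReal (((norm_P3_le _).trans (mul_le_mul_of_nonneg_left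
        ((pi_norm_le_iff_of_nonneg (norm_nonneg (D (P3.symm y)))).2 fun i => ?_)
          (by norm_num))))).trans (le_of_eq ?_)
      · refine (norm_le_pi_norm (D (P3.symm y) (Pi.single i 1)) j).trans ?_
        have h3 := (D (P3.symm y)).le_opNorm (Pi.single i (1:ℝ))
        have h4 : ‖(Pi.single i (1:ℝ) : E3)‖ = 1 := by
          rw [Pi.norm_single]; simp
        rwa [h4, mul_one] at h3
      · rw [ENNReal.ofReal_mul (by norm_num)]
        norm_num
    refine ne_top_of_le_ne_top (ENNReal.mul_ne_top h22 ?_) h1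
    rw [← lint_P3_symm Om (fun x => ‖D x‖ₑ ^ p)]
    exact h.energy

/-- **TINY-LOC** -/
theorem tiny_loc {p : ℝ} (hp : 1 ≤ p) {Om La : Set E3} (hO : IsOpen Om) (hLa : IsOpen La)
    {f : E3 → E3} {D : E3 → E3 →L[ℝ] E3} (hS : SH3 p Om La f D) (Φ : FoamD δ κ0 Rc c0 La)
    {c : Φ.F} (hpt : (Φ.B c).lo = (Φ.B c).hi) {x₀ : E3} (hfx : f x₀ = (Φ.B c).lo)
    {R : ℝ} (hR : 0 < R) (hOm : closedBall x₀ R ⊆ Om)
    (hin : ∀ x ∈ closedBall x₀ R, ∀ k, c.1.lo k < f x k ∧ f x k < c.1.hi k)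
    {κ1 : ℝ} (hκ : 0 < κ1) : TinyLoc Φ Om f κ1 c x₀ R := by
  refine tiny_loc_of Φ hLa hS.homeo hpt hfx hR hOm hin hκ ?_
  have key := Pse_316.sphere_fullE hp (isOpen_symm_pre hO) (isOpen_symm_pre hLa) (sh_of3 hp hO hS)
    (δ := δ) (κ0 := κ0) (R := Rc) (c0 := c0)
  rw [symm_pre, symm_pre, e3_r3] at key
  obtain ⟨r, h1, -, -, H⟩ := key Φ c hpt
  refine ⟨r, h1, fun ρ₁ ρ₂ ε a1 a2 a3 a4 => ?_⟩
  obtain ⟨φ, a, b, Θ, S⟩ := H ρ₁ ρ₂ ε a1 a2 a3 a4
  exact ⟨φ, a, b, Θ, ⟨S.ab, S.pl, S.plT, S.lt, S.inn, S.near, S.ball, S.bij⟩⟩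

end Crest.Agent.R096.Tl_4
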