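import Crest.Agent.R096.Top_961
import Crest.Agent.R096.Br2_695
import Crest.Agent.R096.Ea0_961
import Crest.Agent.R096.SkN2_477
import Crest.Agent.R096.No6_276

/-!
Row 96 (S0127), helper961.  **The top of the row with the literal Props of record** (Mbf_337.MachBF,
SkN2_477.MachNO, EaX_766.EA, Ea0_961.EA0, Br_695.BFk, No_276.NOPre, No_276.NOS).
`s0127_final` is instantiated in `Crest/Agent/S0127.lean`.
-/

set_option autoImplicit false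
set_option linter.style.longLine false

namespace Crest.Agent.R096.Top_961

open MeasureTheory Metric Set Filter Topology
open scoped ENNReal Gradient NNReal
open Crest.AnalysisR.VecCalc3 Crest.AnalysisR.Sobolev
open Crest.Agent.R096.Sk_962 Crest.Agent.R096.Sk4_663

/-- `BFs p` for all `p ≥ 1`. -/
theorem bfs_all (hM : Mbf_337.MachBF)
    (ea : Mbf_337.MachBF → ∀ p : ℝ, 2 < p → EaX_766.EA p)
    (ea0 : Mbf_337.MachBF → ∀ p : ℝ, 1 ≤ p → p ≤ 2 → Ea0_961.EA0 p)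
    (r12 : ∀ p : ℝ, 1 ≤ p → p ≤ 2 → Ea0_961.EA0 p → Br_695.BFk p)
    (r23 : ∀ p : ℝ, 2 < p → p < 3 → EaX_766.EA p → Br_695.BFk p)
    (r3 : ∀ p : ℝ, 3 ≤ p → EaX_766.EA p → Br_695.BFk p)
    (p : ℝ) (hp : 1 ≤ p) : BFs p := by
  refine Br_695.bfs_of_bfk hp ?_
  rcases le_or_gt p 2 with h | h
  · exact r12 p hp h (ea0 hM p hp h)
  · rcases lt_or_ge p 3 with h' | h'
    · exact r23 p h h' (ea hM p h)
    · exact r3 p h' (ea hM p h)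

/-- `NO0 p` for all `p ≥ 1`. -/
theorem no0_all (hMN : ∀ p : ℝ, 1 ≤ p → SkN2_477.MachNO p)
    (pre : ∀ p : ℝ, 1 ≤ p → No_276.NOPre p)
    (asm : ∀ p : ℝ, 1 ≤ p → SkN2_477.MachNO p → No_276.NOPre p → No_276.NOS p)
    (p : ℝ) (hp : 1 ≤ p) : NO0 p :=
  no0_of_nos hp (asm p hp (hMN p hp) (pre p hp))

/-- **S0127 from the nodes of record.** -/
theorem s0127_final (hM : Mbf_337.MachBF) (hMN : ∀ p : ℝ, 1 ≤ p → SkN2_477.MachNO p)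
    (ea : Mbf_337.MachBF → ∀ p : ℝ, 2 < p → EaX_766.EA p)
    (ea0 : Mbf_337.MachBF → ∀ p : ℝ, 1 ≤ p → p ≤ 2 → Ea0_961.EA0 p)
    (r12 : ∀ p : ℝ, 1 ≤ p → p ≤ 2 → Ea0_961.EA0 p → Br_695.BFk p)
    (r23 : ∀ p : ℝ, 2 < p → p < 3 → EaX_766.EA p → Br_695.BFk p)
    (r3 : ∀ p : ℝ, 3 ≤ p → EaX_766.EA p → Br_695.BFk p)
    (pre : ∀ p : ℝ, 1 ≤ p → No_276.NOPre p)
    (asm : ∀ p : ℝ, 1 ≤ p → SkN2_477.MachNO p → No_276.NOPre p → No_276.NOS p)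
    (Ω Λ : Set R3) (hΩo : IsOpen Ω) (hΩb : Bornology.IsBounded Ω) (hΩc : IsConnected Ω)
    (hΛo : IsOpen Λ) (hΛb : Bornology.IsBounded Λ) (hΛc : IsConnected Λ)
    (p : ℝ) (hp : 1 ≤ p) (f : R3 → R3) (hf : IsHomeomorphOn f Ω Λ)
    (hfp : MemLp f (ENNReal.ofReal p) (volume.restrict Ω))
    (G : Fin 3 → R3 → R3) (hG : ∀ j : Fin 3, HasWeakGradOn Ω (fun x => f x j) (G j))
    (hGp : ∀ j : Fin 3, MemLp (G j) (ENNReal.ofReal p) (volume.restrict Ω))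
    (ε : ℝ≥0∞) (hε : 0 < ε) :
    ∃ g : R3 → R3, IsSmoothDiffeoOn g Ω Λ ∧ MemLp g (ENNReal.ofReal p) (volume.restrict Ω) ∧
      (∀ j : Fin 3, MemLp (fun x => ∇ (fun y => g y j) x) (ENNReal.ofReal p) (volume.restrict Ω)) ∧
      ∫⁻ x in Ω, (‖g x - f x‖ₑ ^ p + ∑ j : Fin 3, ‖∇ (fun y => g y j) x - G j x‖ₑ ^ p) < ε :=
  s0127_of (bfs_all hM ea ea0 r12 r23 r3) (no0_all hMN pre asm)
    Ω Λ hΩo hΩb hΩc hΛo hΛb hΛc p hp f hf hfp G hG hGp ε hε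

end Crest.Agent.R096.Top_961
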