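import Crest.Agent.R096.Wy1_664
import Crest.Agent.R096.Bgf11_4

/-!
# Row 96, DOORS (helper664): the wall point over 4's `exists_bars`

`exists_wall` : for every moat `m` a point of the barrier on a tile which has a point of gauge
`ρ3 + 9 d` with level `≤ 3 μ / 8` (the input `y` of `ConnT`, helper778).
-/

set_option autoImplicit false
set_option linter.unusedSectionVars false

open Set Topology Filter Metric Module MeasureTheory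
open scoped Classical

namespace Crest.Agent.R096.Wy_664

open Crest.Agent.R096.Msh_715 Crest.Agent.R096.Coh_184 Crest.Agent.R096.Bsp_628
  Crest.Agent.R096.Brk1_582 Crest.Agent.R096.Brk2_582 Crest.Agent.R096.Brk3_582
  Crest.Agent.R096.Brk5_582 Crest.Agent.R096.Init_543 Crest.Agent.R096.Mbf_337
  Crest.Agent.R96.Push_899 Crest.Agent.R096.Ess1_95 Crest.Agent.R096.Ess4_95
  Crest.Agent.R096.Ess5_95 Crest.Agent.R096.Ess6_95 Crest.Agent.R096.Ess7_95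
  Crest.Agent.R096.Lab_184 Crest.Agent.R096.Seq_213 Crest.Agent.R096.Seq_213.GSt
  Crest.Agent.R096.Main_4 Crest.Agent.R096.Exa_560 Crest.Agent.R096.Agl4_543
  Crest.Agent.R096.Agl5_543 Crest.Agent.R096.Agl6_543 Crest.Agent.R096.Agl8_543
  Crest.Agent.R096.Ebr1_95 Crest.Agent.R096.Ebr2_95
  Crest.Agent.R096.Ebr3_95 Crest.Agent.R096.Ebr4_95 Crest.Agent.R096.Ebr5_95
  Crest.Agent.R096.Ebr6_95 Crest.Agent.R096.Bar_106
  Crest.Agent.R096.Bgf_4 Crest.Agent.R096.Dib_438 Crest.Agent.R096.Sphg_316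

open Crest.Agent.R096.SkC1_961 (E3 Hom3 IsPush FoamD)

variable {δ κ0 R c0 : ℝ} {La Om : Set E3} {ι : Type} {Φ : FoamD δ κ0 R c0 La}
  {T : Tiling Om ι} {f g : E3 → E3}
variable {X : Set Φ.F} {J0 J V : Φ.F → Set ι} {θ : Φ.F → E3 → E3} {κ1 : ℝ}
  {ρ1 ρ2 ρ3 ρ4 d : Φ.F → ℝ} {r₀ : Φ.F → ℝ} {L : Φ.F → Finset ℝ} [Nonempty (JJ Φ L)]
  {bp : JJ Φ L → E3} {bm : BM Φ X → E3} {ε : BM Φ X → ℝ} {q₀ : BM Φ X → E3}

/-- **THE WALL POINT** of the moat `m` (numbers of record: `l0 = μ / 8`, `mm = 1/2`,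
`ra = 1/2 - 5 μ / 16`, `sg ≤ μ / 16`, `d ≤ κ1`) -/
theorem exists_wall (hLa : IsOpen La) (hδ : 0 < δ) (hR : 0 < R) (H : Hm f g Om La)
    {μ : ℝ} (hμ : 0 < μ) (hμ1 : μ ≤ 1 / 2) {sg : ℝ} (hsg : sg ≤ μ / 16)
    (hBF : BarF Φ T f J0 J V θ (fun m : BM Φ X => m.co) (fun m => ρ1 m.co)
        (fun m => ρ2 m.co) (fun m => ρ3 m.co) (fun m => ρ4 m.co) (fun m => d m.co)
        (fun m => gmf Φ (μ / 8) (1 / 2) (1 / 2 - 5 * μ / 16) m.am m.Zm) (fun m => rB ρ1 ρ3 d m.co)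
        (fun m => hB ρ1 ρ3 d m.co) (fun _ => 1) (fun m => hiB ρ1 ρ3 d sg m.co)
        (fun m => max (d m.co / (μ / 8)) (d m.co / (1 / 2 - 5 * μ / 16))) q₀ (fun _ => 0))
    (hGB : GFB Φ r₀ T f L (lBM Φ X ρ1 ρ3 d sg (μ / 8) (1 / 2) (1 / 2 - 5 * μ / 16)) ε)
    (hε : ∀ m, ε m ∈ Ioo 1 (hiB ρ1 ρ3 d sg m.co)) (m : BM Φ X)
    (hdm : d m.co ≤ μ ^ 2 / 512) {lm : E3 → ZMod 2}
    (hlm : FarL T (Om ∩ f ⁻¹' {y | ga Φ m.co y ≤ ρ4 m.co}) (gPts (stB hGB bp bm) (Sum.inr m)) lm)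
    (LOW : ∀ b, b + max (d m.co / (μ / 8)) (d m.co / (1 / 2 - 5 * μ / 16)) < ε m →
          IsPreconnected {q | q ∈ frontier m.co.1.set ∧
            gmf Φ (μ / 8) (1 / 2) (1 / 2 - 5 * μ / 16) m.am m.Zm q ≤ b} →
          0 ≤ b → ∀ v ∈ Om, T.dim v = 0 →
          rB ρ1 ρ3 d m.co - hB ρ1 ρ3 d m.co * ε m + 2 * d m.co ≤ ga Φ m.co (f v) →
          ga Φ m.co (f v) ≤ rB ρ1 ρ3 d m.co + hB ρ1 ρ3 d m.co * ε m - 2 * d m.co →
          gmf Φ (μ / 8) (1 / 2) (1 / 2 - 5 * μ / 16) m.am m.Zm (Φ.Psi (f v)) ≤ b → lm v = 1)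
    (HIGH : ∀ b, ε m + max (d m.co / (μ / 8)) (d m.co / (1 / 2 - 5 * μ / 16)) < b →
          IsPreconnected {q | q ∈ frontier m.co.1.set ∧
            b ≤ gmf Φ (μ / 8) (1 / 2) (1 / 2 - 5 * μ / 16) m.am m.Zm q} →
          {q | q ∈ frontier m.co.1.set ∧
            b ≤ gmf Φ (μ / 8) (1 / 2) (1 / 2 - 5 * μ / 16) m.am m.Zm q}.Nonempty →
          ∀ v ∈ Om, T.dim v = 0 →
            (ga Φ m.co (f v) ≤ rB ρ1 ρ3 d m.co - hB ρ1 ρ3 d m.co * ε m - 2 * d m.co ∨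
              rB ρ1 ρ3 d m.co + hB ρ1 ρ3 d m.co * ε m + 2 * d m.co ≤ ga Φ m.co (f v) ∨
              b ≤ gmf Φ (μ / 8) (1 / 2) (1 / 2 - 5 * μ / 16) m.am m.Zm (Φ.Psi (f v))) → lm v = 0) :
    ∃ w ∈ (stB hGB bp bm).P, (stB hGB bp bm).lab w = Sum.inr m ∧ w ∈ Om ∧
      ρ3 m.co + 8 * d m.co ≤ ga Φ m.co (f w) ∧ ga Φ m.co (f w) ≤ ρ3 m.co + 10 * d m.co ∧
      gmf Φ (μ / 8) (1 / 2) (1 / 2 - 5 * μ / 16) m.am m.Zm (Φ.Psi (f w)) = ε m ∧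
      Φ.lev m.am (f w) ≤ 3 * μ / 8 ∧
      ∃ q ∈ V m.co, w ∈ P (T.H q) ∧ ∃ x ∈ P (T.H q), ga Φ m.co (f x) = ρ3 m.co + 9 * d m.co ∧
        Φ.lev m.am (f x) ≤ 3 * μ / 8 ∧
        ∀ e, dv m.am m.Zm (fun e => Φ.lev e (f x)) e = 0 := by
  obtain ⟨p, q, hM⟩ := m.mo
  have hr := hBF.room m
  have hd := hr.d0
  have h12 := hr.r12
  have h23 := hr.r23
  have hh := hBF.h0 m
  have hra : 0 < 1 / 2 - 5 * μ / 16 := by linarith
  have hω : 0 < max (d m.co / (μ / 8)) (d m.co / (1 / 2 - 5 * μ / 16)) :=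
    lt_max_of_lt_left (by positivity)
  have hω1 : max (d m.co / (μ / 8)) (d m.co / (1 / 2 - 5 * μ / 16)) ≤ μ / 64 := by
    refine max_le ?_ ?_
    · rw [div_le_iff₀ (by positivity)]
      nlinarith
    · rw [div_le_iff₀ hra]
      nlinarith
  have hεm := hε m
  have h1 : hB ρ1 ρ3 d m.co * 1 ≤ hB ρ1 ρ3 d m.co * ε m :=
    mul_le_mul_of_nonneg_left hεm.1.le hh.le
  have e1 := rB_sub (ρ1 := ρ1) (ρ3 := ρ3) (d := d) m.co
  have e2 := rB_add (ρ1 := ρ1) (ρ3 := ρ3) (d := d) m.co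
  have hhi := hiB_le (ρ1 := ρ1) (ρ3 := ρ3) (d := d) (c := m.co) sg
  obtain ⟨u, hu, hul, huO, g1, g2, g3, i, hi, hui, x, hx, hxt, hl1, hl2, hdv⟩ :=
    exists_wall_gen (m := m) (t := ρ3 m.co + 9 * d m.co) (b0 := 1 / 8) (hN' := 1 + μ / 2)
      (p := p) (q := q) hLa hδ hR H hBF hGB hεm (nm_rec hμ hμ1) hM rfl hω (by norm_num)
      (by linarith) (by linarith [hεm.1]) (by linarith [hεm.2])
      (by show rB ρ1 ρ3 d m.co - hB ρ1 ρ3 d m.co * ε m + 3 * d m.co ≤ _; linarith)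
      (by show _ ≤ rB ρ1 ρ3 d m.co + hB ρ1 ρ3 d m.co * ε m - 3 * d m.co; linarith)
      hlm.lab (fun b h1 h2 h3 => LOW b h1 h2 (le_trans
        (div_nonneg (abs_nonneg _) hra.le) ((le_max_right _ _).trans h3))) HIGH
  have hl3 : (1 / 2 : ℝ) - (1 / 2 - 5 * μ / 16) *
      (ε m - max (d m.co / (μ / 8)) (d m.co / (1 / 2 - 5 * μ / 16))) ≤ 5 * μ / 16 + μ / 128 := by
    have h6 : (1 / 2 - 5 * μ / 16) * (1 - μ / 64) ≤ (1 / 2 - 5 * μ / 16) *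
        (ε m - max (d m.co / (μ / 8)) (d m.co / (1 / 2 - 5 * μ / 16))) :=
      mul_le_mul_of_nonneg_left (by linarith [hεm.1]) hra.le
    nlinarith
  have hd2 : d m.co ≤ μ / 64 := by nlinarith
  refine ⟨u, hu, hul, huO, by
    have g1' : ρ3 m.co + 9 * d m.co - d m.co ≤ ga Φ m.co (f u) := g1
    linarith, by
    have g2' : ga Φ m.co (f u) ≤ ρ3 m.co + 9 * d m.co + d m.co := g2
    linarith, g3, ?_, i, hi, hui, x, hx, hxt, ?_, hdv⟩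
  · refine hl2.trans ?_
    show (1 / 2 : ℝ) - (1 / 2 - 5 * μ / 16) *
      (ε m - max (d m.co / (μ / 8)) (d m.co / (1 / 2 - 5 * μ / 16))) + d m.co ≤ _
    linarith
  · exact hl1.trans (by linarith)

end Crest.Agent.R096.Wy_664
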